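import Mathlib

/-! The three point inequality for `G_r(t) = ∫_0^t exp(-y²/r²) dy`. -/

set_option linter.all false

open MeasureTheory Set

namespace Vale.Agent.P134.H922

/-- `G_r(t) = ∫_0^t exp(-y²/r²) dy`. -/
noncomputable def Gr (r t : ℝ) : ℝ := ∫ y in (0:ℝ)..t, Real.exp (-(y ^ 2 / r ^ 2))

lemma Gr_int (r a b : ℝ) :
    IntervalIntegrable (fun y => Real.exp (-(y ^ 2 / r ^ 2))) volume a b :=
  (by fun_prop : Continuous fun y : ℝ => Real.exp (-(y ^ 2 / r ^ 2))).intervalIntegrable _ _

lemma Gr_neg (r t : ℝ) : Gr r (-t) = - Gr r t := by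
  unfold Gr
  have h := intervalIntegral.integral_comp_neg (a := 0) (b := t)
    (fun y => Real.exp (-(y ^ 2 / r ^ 2)))
  simp only [neg_sq, neg_zero] at h
  rw [h, intervalIntegral.integral_symm]

lemma Gr_mono (r : ℝ) : Monotone (Gr r) := by
  intro a b hab
  have h : Gr r b - Gr r a = ∫ y in a..b, Real.exp (-(y ^ 2 / r ^ 2)) := by
    unfold Gr
    rw [intervalIntegral.integral_interval_sub_left (Gr_int r _ _) (Gr_int r _ _)]
  have h2 : 0 ≤ ∫ y in a..b, Real.exp (-(y ^ 2 / r ^ 2)) :=
    intervalIntegral.integral_nonneg hab fun y _ => (Real.exp_pos _).le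
  linarith

lemma Gr_le {r : ℝ} (hr : 0 < r) (t : ℝ) : Gr r t ≤ √Real.pi * r / 2 := by
  have hI : ∫ y in Ioi (0:ℝ), Real.exp (-(y ^ 2 / r ^ 2)) = √Real.pi * r / 2 := by
    have h := integral_gaussian_Ioi (1 / r ^ 2)
    have e : ∀ y : ℝ, -(1 / r ^ 2) * y ^ 2 = -(y ^ 2 / r ^ 2) := fun y => by ring
    simp only [e] at h
    rw [h]
    congr 1
    rw [show Real.pi / (1 / r ^ 2) = Real.pi * r ^ 2 by field_simp,
      Real.sqrt_mul Real.pi_pos.le, Real.sqrt_sq hr.le]
  have hint : IntegrableOn (fun y : ℝ => Real.exp (-(y ^ 2 / r ^ 2))) (Ioi 0) := by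
    have h := (integrable_exp_neg_mul_sq (b := 1 / r ^ 2) (by positivity)).integrableOn (s := Ioi 0)
    have e : ∀ y : ℝ, -(1 / r ^ 2) * y ^ 2 = -(y ^ 2 / r ^ 2) := fun y => by ring
    simpa only [e] using h
  rcases le_total 0 t with ht | ht
  · rw [← hI]
    unfold Gr
    rw [intervalIntegral.integral_of_le ht]
    exact setIntegral_mono_set hint (Filter.Eventually.of_forall fun y => (Real.exp_pos _).le)
      Ioc_subset_Ioi_self.eventuallyLE
  · have h1 : Gr r t ≤ Gr r 0 := Gr_mono r ht
    have h2 : Gr r 0 = 0 := by simp [Gr]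
    have : 0 ≤ √Real.pi * r / 2 := by positivity
    linarith

lemma Gr_abs_le {r : ℝ} (hr : 0 < r) (t : ℝ) : |Gr r t| ≤ √Real.pi * r / 2 := by
  rw [abs_le]
  have h1 := Gr_le hr t
  have h2 := Gr_le hr (-t)
  rw [Gr_neg] at h2
  constructor <;> linarith

lemma Gr_cont (r : ℝ) : Continuous (Gr r) := by
  unfold Gr
  exact intervalIntegral.continuous_primitive (fun a b => Gr_int r a b) 0

lemma Gr_sub {r a b : ℝ} (ha : 0 ≤ a) (hb : 0 ≤ b) : Gr r (a + b) ≤ Gr r a + Gr r b := by
  have h : Gr r (a + b) - Gr r a = ∫ y in a..(a + b), Real.exp (-(y ^ 2 / r ^ 2)) := by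
    unfold Gr
    rw [intervalIntegral.integral_interval_sub_left (Gr_int r _ _) (Gr_int r _ _)]
  have h2 : ∫ y in a..(a + b), Real.exp (-(y ^ 2 / r ^ 2)) =
      ∫ y in (0:ℝ)..b, Real.exp (-((y + a) ^ 2 / r ^ 2)) := by
    have := intervalIntegral.integral_comp_add_right (a := 0) (b := b)
      (fun y => Real.exp (-(y ^ 2 / r ^ 2))) a
    rw [zero_add] at this
    rw [this, add_comm b a]
  have h3 : ∫ y in (0:ℝ)..b, Real.exp (-((y + a) ^ 2 / r ^ 2)) ≤ Gr r b := by
    unfold Gr
    refine intervalIntegral.integral_mono_on hb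
      ((by fun_prop : Continuous fun y : ℝ =>
        Real.exp (-((y + a) ^ 2 / r ^ 2))).intervalIntegrable _ _) (Gr_int r _ _) fun y hy => ?_
    apply Real.exp_le_exp.mpr
    apply neg_le_neg
    apply div_le_div_of_nonneg_right _ (sq_nonneg r)
    have := hy.1
    nlinarith
  linarith

/-- **Three point inequality.** -/
theorem Gr_three {r : ℝ} (hr : 0 < r) (s t : ℝ) :
    |Gr r s + Gr r t - Gr r (s + t)| ≤ √Real.pi * r / 2 := by
  have key : ∀ a b : ℝ, 0 ≤ a → 0 ≤ b → 0 ≤ Gr r a + Gr r b - Gr r (a + b) ∧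
      Gr r a + Gr r b - Gr r (a + b) ≤ √Real.pi * r / 2 := by
    intro a b ha hb
    have h1 := Gr_sub (r := r) ha hb
    have h2 : Gr r a ≤ Gr r (a + b) := Gr_mono r (by linarith)
    have h3 := Gr_le hr b
    constructor <;> linarith
  rw [abs_le]
  have hM : 0 ≤ √Real.pi * r / 2 := by positivity
  rcases le_total 0 s with hs | hs <;> rcases le_total 0 t with ht | ht
  · have := key s t hs ht
    constructor <;> linarith [this.1, this.2]
  · rcases le_total 0 (s + t) with h | h
    · have := key (s + t) (-t) h (by linarith)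
      rw [show s + t + -t = s by ring, Gr_neg] at this
      constructor <;> linarith [this.1, this.2]
    · have := key (-(s + t)) s (by linarith) hs
      rw [show -(s + t) + s = -t by ring, Gr_neg, Gr_neg] at this
      constructor <;> linarith [this.1, this.2]
  · rcases le_total 0 (s + t) with h | h
    · have := key (s + t) (-s) h (by linarith)
      rw [show s + t + -s = t by ring, Gr_neg] at this
      constructor <;> linarith [this.1, this.2]
    · have := key (-(s + t)) t (by linarith) ht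
      rw [show -(s + t) + t = -s by ring, Gr_neg, Gr_neg] at this
      constructor <;> linarith [this.1, this.2]
  · have := key (-s) (-t) (by linarith) (by linarith)
    rw [show -s + -t = -(s + t) by ring, Gr_neg, Gr_neg, Gr_neg] at this
    constructor <;> linarith [this.1, this.2]

end Vale.Agent.P134.H922
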