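import Mathlib

/-! End of the package PLN (P134): quasi-additive odd functions and flatness (pure analysis). -/

set_option linter.all false

open MeasureTheory Set Metric Filter Topology
open scoped Pointwise

namespace Vale.Agent.P134.H922

variable {n : ℕ}

/-- A smooth even bump on `ℝⁿ` (sup norm): `1` on the ball of radius `1/2`, supported in the unit ball. -/
noncomputable def bmp (n : ℕ) : ContDiffBump (0 : Fin n → ℝ) := ⟨1/2, 1, by norm_num, by norm_num⟩

lemma bmp_nonneg (x : Fin n → ℝ) : 0 ≤ bmp n x := (bmp n).nonneg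
lemma bmp_le_one (x : Fin n → ℝ) : bmp n x ≤ 1 := (bmp n).le_one
lemma bmp_one {x : Fin n → ℝ} (h : ‖x‖ ≤ 1/2) : bmp n x = 1 :=
  (bmp n).one_of_mem_closedBall (by simpa [bmp, mem_closedBall, dist_eq_norm] using h)
lemma bmp_zero {x : Fin n → ℝ} (h : 1 ≤ ‖x‖) : bmp n x = 0 :=
  (bmp n).zero_of_le_dist (by simpa [bmp, dist_eq_norm] using h)
lemma bmp_contDiff : ContDiff ℝ 2 (bmp n : (Fin n → ℝ) → ℝ) := (bmp n).contDiff
lemma bmp_hcs : HasCompactSupport (bmp n : (Fin n → ℝ) → ℝ) := (bmp n).hasCompactSupport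
lemma bmp_cont : Continuous (bmp n : (Fin n → ℝ) → ℝ) := (bmp n).continuous

lemma exists_taylor (n : ℕ) : ∃ K : ℝ, 0 ≤ K ∧ ∀ y h : Fin n → ℝ,
    |bmp n (y + h) - bmp n y - fderiv ℝ (bmp n : (Fin n → ℝ) → ℝ) y h| ≤ K * ‖h‖ ^ 2 := by
  have hc : ContDiff ℝ 1 (fderiv ℝ (bmp n : (Fin n → ℝ) → ℝ)) :=
    bmp_contDiff.fderiv_right (by norm_num)
  obtain ⟨K, hK⟩ := hc.lipschitzWith_of_hasCompactSupport (bmp_hcs.fderiv ℝ) (by norm_num)
  refine ⟨K, K.2, fun y h => ?_⟩
  have key : ∀ x ∈ closedBall y ‖h‖,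
      ‖fderiv ℝ (bmp n : (Fin n → ℝ) → ℝ) x - fderiv ℝ (bmp n : (Fin n → ℝ) → ℝ) y‖ ≤ K * ‖h‖ := by
    intro x hx
    have h1 := hK.dist_le_mul x y
    rw [dist_eq_norm, dist_eq_norm] at h1
    rw [mem_closedBall, dist_eq_norm] at hx
    exact h1.trans (mul_le_mul_of_nonneg_left hx K.2)
  have h2 := (convex_closedBall y ‖h‖).norm_image_sub_le_of_norm_fderiv_le' (𝕜 := ℝ)
    (f := (bmp n : (Fin n → ℝ) → ℝ)) (φ := fderiv ℝ (bmp n : (Fin n → ℝ) → ℝ) y)
    (x := y) (y := y + h)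
    (fun x _ => (bmp_contDiff.differentiable (by norm_num)) x) key
    (mem_closedBall_self (norm_nonneg _)) (by simp [mem_closedBall, dist_eq_norm])
  simp only [add_sub_cancel_left, Real.norm_eq_abs] at h2
  calc _ ≤ K * ‖h‖ * ‖h‖ := h2
    _ = K * ‖h‖ ^ 2 := by ring

/-- Mollification. -/
noncomputable def Vm (ψ : (Fin n → ℝ) → ℝ) (p : Fin n → ℝ) : ℝ := ∫ y, ψ y * bmp n (y - p)

/-- Its derivative. -/
noncomputable def Am (ψ : (Fin n → ℝ) → ℝ) (p : Fin n → ℝ) : (Fin n → ℝ) →L[ℝ] ℝ :=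
  - ∫ y, ψ y • fderiv ℝ (bmp n : (Fin n → ℝ) → ℝ) (y - p)

lemma hcs_shift {F : Type*} [Zero F] {f : (Fin n → ℝ) → F} (hf : HasCompactSupport f)
    (p : Fin n → ℝ) : HasCompactSupport fun y => f (y - p) := by
  have := hf.comp_homeomorph (Homeomorph.subRight p)
  exact this

lemma int1 {ψ : (Fin n → ℝ) → ℝ} (hψ : Continuous ψ) (p : Fin n → ℝ) :
    Integrable fun y => ψ y * bmp n (y - p) := by
  refine (hψ.mul (bmp_cont.comp (by fun_prop))).integrable_of_hasCompactSupport ?_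
  exact (hcs_shift bmp_hcs p).mul_left

lemma int2 {ψ : (Fin n → ℝ) → ℝ} (hψ : Continuous ψ) (p : Fin n → ℝ) :
    Integrable fun y => ψ y • fderiv ℝ (bmp n : (Fin n → ℝ) → ℝ) (y - p) := by
  have hc : Continuous (fderiv ℝ (bmp n : (Fin n → ℝ) → ℝ)) :=
    (bmp_contDiff.continuous_fderiv (by norm_num))
  refine (hψ.smul (hc.comp (by fun_prop))).integrable_of_hasCompactSupport ?_
  exact (hcs_shift (bmp_hcs.fderiv ℝ) p).smul_left

lemma volc (r : ℝ) (hr : 0 ≤ r) (p : Fin n → ℝ) :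
    (volume (closedBall p r)).toReal = (2 * r) ^ n := by
  rw [Real.volume_pi_closedBall _ hr, ENNReal.toReal_ofReal (by positivity)]
  simp

lemma vol_ne (r : ℝ) (p : Fin n → ℝ) : volume (closedBall p r) ≠ ⊤ :=
  (isCompact_closedBall p r).measure_lt_top.ne

lemma taylorV {ψ : (Fin n → ℝ) → ℝ} (hψ : Continuous ψ) (h0 : ∀ x, 0 ≤ ψ x) (h1 : ∀ x, ψ x ≤ 1)
    {K : ℝ} (hK0 : 0 ≤ K) (hK : ∀ y h : Fin n → ℝ,
    |bmp n (y + h) - bmp n y - fderiv ℝ (bmp n : (Fin n → ℝ) → ℝ) y h| ≤ K * ‖h‖ ^ 2)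
    (p h : Fin n → ℝ) (hh : ‖h‖ ≤ 1) :
    |Vm ψ (p + h) - Vm ψ p - Am ψ p h| ≤ 4 ^ n * K * ‖h‖ ^ 2 := by
  have e1 : Vm ψ (p + h) - Vm ψ p - Am ψ p h =
      ∫ y, ψ y * (bmp n ((y - p) + -h) - bmp n (y - p)
        - fderiv ℝ (bmp n : (Fin n → ℝ) → ℝ) (y - p) (-h)) := by
    have e2 : Am ψ p h = - ∫ y, ψ y * fderiv ℝ (bmp n : (Fin n → ℝ) → ℝ) (y - p) h := by
      unfold Am
      rw [ContinuousLinearMap.neg_apply, ContinuousLinearMap.integral_apply (int2 hψ p)]
      simp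
    have i3 : Integrable fun y => ψ y * fderiv ℝ (bmp n : (Fin n → ℝ) → ℝ) (y - p) h := by
      have := (int2 hψ p).apply_continuousLinearMap h
      simpa using this
    rw [e2]
    unfold Vm
    rw [← integral_sub (int1 hψ _) (int1 hψ _), sub_neg_eq_add]
    have i4 := (int1 hψ (p + h)).sub (int1 hψ p)
    have i5 := integral_add i4 i3
    simp only [Pi.sub_apply] at i5
    rw [← i5]
    refine integral_congr_ae (Eventually.of_forall fun y => ?_)
    simp only [map_neg]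
    rw [show y - (p + h) = y - p + -h by abel]
    ring
  rw [e1]
  have hz : ∀ y ∉ closedBall p 2, ψ y * (bmp n ((y - p) + -h) - bmp n (y - p)
        - fderiv ℝ (bmp n : (Fin n → ℝ) → ℝ) (y - p) (-h)) = 0 := by
    intro y hy
    rw [mem_closedBall, dist_eq_norm, not_le] at hy
    have a1 : bmp n (y - p) = 0 := bmp_zero (by linarith)
    have a2 : bmp n (y - p + -h) = 0 := by
      apply bmp_zero
      have := norm_sub_norm_le (y - p) h
      rw [sub_eq_add_neg] at this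
      rw [show y - p + -h = y - p - h by abel]
      have := norm_sub_norm_le (y - p) h
      linarith
    have a3 : fderiv ℝ (bmp n : (Fin n → ℝ) → ℝ) (y - p) = 0 := by
      have : (bmp n : (Fin n → ℝ) → ℝ) =ᶠ[𝓝 (y - p)] fun _ => 0 := by
        have ho : IsOpen {x : Fin n → ℝ | 1 < ‖x‖} := isOpen_lt continuous_const continuous_norm
        filter_upwards [ho.mem_nhds (show (1:ℝ) < ‖y - p‖ by linarith)] with x hx
        exact bmp_zero (le_of_lt hx)
      rw [this.fderiv_eq]; simp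
    rw [a1, a2, a3]; simp
  rw [← setIntegral_eq_integral_of_forall_compl_eq_zero hz]
  have hb : ∀ y ∈ closedBall p 2, ‖ψ y * (bmp n ((y - p) + -h) - bmp n (y - p)
        - fderiv ℝ (bmp n : (Fin n → ℝ) → ℝ) (y - p) (-h))‖ ≤ K * ‖h‖ ^ 2 := by
    intro y _
    rw [norm_mul, Real.norm_eq_abs, Real.norm_eq_abs, abs_of_nonneg (h0 y)]
    have := hK (y - p) (-h)
    rw [norm_neg] at this
    calc ψ y * _ ≤ 1 * (K * ‖h‖ ^ 2) := mul_le_mul (h1 y) this (abs_nonneg _) zero_le_one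
      _ = _ := one_mul _
  have := norm_setIntegral_le_of_norm_le_const (vol_ne 2 p).lt_top hb
  rw [Real.norm_eq_abs] at this
  refine this.trans (le_of_eq ?_)
  rw [measureReal_def, volc 2 (by norm_num)]
  norm_num; ring

lemma hasFDerivV {ψ : (Fin n → ℝ) → ℝ} (hψ : Continuous ψ) (h0 : ∀ x, 0 ≤ ψ x)
    (h1 : ∀ x, ψ x ≤ 1) (p : Fin n → ℝ) : HasFDerivAt (Vm ψ) (Am ψ p) p := by
  obtain ⟨K, hK0, hK⟩ := exists_taylor n
  rw [hasFDerivAt_iff_isLittleO_nhds_zero]
  have hO : (fun h => Vm ψ (p + h) - Vm ψ p - Am ψ p h) =O[𝓝 0] fun h => ‖h‖ ^ 2 := by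
    refine Asymptotics.IsBigO.of_bound (4 ^ n * K) ?_
    filter_upwards [closedBall_mem_nhds (0 : Fin n → ℝ) one_pos] with h hh
    have := taylorV hψ h0 h1 hK0 hK p h (by simpa [mem_closedBall, dist_eq_norm] using hh)
    simpa [Real.norm_eq_abs] using this
  refine hO.trans_isLittleO ?_
  have : (fun h : Fin n → ℝ => ‖h‖ ^ 2) =o[𝓝 0] fun h => h := by
    simpa using (Asymptotics.isLittleO_norm_pow_id (E' := Fin n → ℝ) (n := 2) (by norm_num))
  exact this

lemma V_lip {ψ : (Fin n → ℝ) → ℝ} (hψ : Continuous ψ) (h0 : ∀ x, 0 ≤ ψ x)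
    (h1 : ∀ x, ψ x ≤ 1) {c : ℝ} (hc : ∀ p : Fin n → ℝ, ‖p‖ ≤ 1 → ‖Am ψ p‖ ≤ c)
    (p : Fin n → ℝ) (hp : ‖p‖ ≤ 1) : |Vm ψ p - Vm ψ 0| ≤ c := by
  have hcn : 0 ≤ c := (norm_nonneg _).trans (hc 0 (by simp))
  have := (convex_closedBall (0 : Fin n → ℝ) 1).norm_image_sub_le_of_norm_hasFDerivWithin_le
    (𝕜 := ℝ) (f := Vm ψ) (f' := Am ψ) (C := c)
    (fun x _ => (hasFDerivV hψ h0 h1 x).hasFDerivWithinAt)
    (fun x hx => hc x (by simpa [mem_closedBall, dist_eq_norm] using hx))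
    (mem_closedBall_self zero_le_one) (y := p) (by simpa [mem_closedBall, dist_eq_norm] using hp)
  rw [sub_zero, Real.norm_eq_abs] at this
  refine this.trans ?_
  calc c * ‖p‖ ≤ c * 1 := mul_le_mul_of_nonneg_left hp hcn
    _ = c := mul_one c

lemma bump_int_le {f : (Fin n → ℝ) → ℝ} (hf : Continuous f) (h0 : ∀ x, 0 ≤ f x)
    (p : Fin n → ℝ) (hp : ‖p‖ ≤ 3) :
    ∫ y, f y * bmp n (y - p) ≤ ∫ y in closedBall (0 : Fin n → ℝ) 4, f y := by
  have hz : ∀ y ∉ closedBall (0 : Fin n → ℝ) 4, f y * bmp n (y - p) = 0 := by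
    intro y hy
    rw [mem_closedBall, dist_eq_norm, sub_zero, not_le] at hy
    have : bmp n (y - p) = 0 := by
      apply bmp_zero
      have := norm_sub_norm_le y p
      linarith
    rw [this, mul_zero]
  rw [← setIntegral_eq_integral_of_forall_compl_eq_zero hz]
  refine setIntegral_mono_on (int1 hf p).integrableOn
    (hf.continuousOn.integrableOn_compact (isCompact_closedBall _ _))
    measurableSet_closedBall fun y _ => ?_
  calc f y * bmp n (y - p) ≤ f y * 1 := mul_le_mul_of_nonneg_left (bmp_le_one _) (h0 y)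
    _ = f y := mul_one _

lemma bump_int_one_le (p : Fin n → ℝ) : ∫ y, bmp n (y - p) ≤ 2 ^ n := by
  have hz : ∀ y ∉ closedBall p 1, bmp n (y - p) = 0 := by
    intro y hy
    rw [mem_closedBall, dist_eq_norm, not_le] at hy
    exact bmp_zero hy.le
  rw [← setIntegral_eq_integral_of_forall_compl_eq_zero hz]
  have hi : IntegrableOn (fun y => bmp n (y - p)) (closedBall p 1) := by
    have := (int1 (n := n) (continuous_const (y := (1:ℝ))) p).integrableOn (s := closedBall p 1)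
    simpa using this
  calc ∫ y in closedBall p 1, bmp n (y - p) ≤ ∫ y in closedBall p 1, (1:ℝ) := by
        refine setIntegral_mono_on hi (integrableOn_const (vol_ne 1 p)) measurableSet_closedBall
          fun y _ => bmp_le_one _
    _ = 2 ^ n := by
        rw [setIntegral_const, measureReal_def, volc 1 (by norm_num)]; simp

lemma V_shift {ψ : (Fin n → ℝ) → ℝ} (p q : Fin n → ℝ) :
    Vm ψ (p + q) = ∫ y, ψ (y + q) * bmp n (y - p) := by
  unfold Vm
  rw [← integral_add_right_eq_self _ q]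
  refine integral_congr_ae (Eventually.of_forall fun y => ?_)
  simp only
  rw [show y + q - (p + q) = y - p by abel]

/-- The data of the lemma. -/
structure Dat (ψ v H : (Fin n → ℝ) → ℝ) (c κ σ δ β : ℝ) : Prop where
  cψ : Continuous ψ
  cv : Continuous v
  ψ0 : ∀ x, 0 ≤ ψ x
  ψ1 : ∀ x, ψ x ≤ 1
  v0 : ∀ x, 0 ≤ v x
  v1 : ∀ x, v x ≤ 1
  odd : ∀ x, H (-x) = - H x
  H3 : ∀ x q, |H x + H q - H (x + q)| ≤ 3 / 2 - σ
  vH : ∀ p : Fin n → ℝ, ‖p‖ ≤ 4 → |v p - c - H p| ≤ δ
  i1 : ∫ x in closedBall (0 : Fin n → ℝ) 4, ψ x * (1 - ψ x) ≤ δ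
  i2 : ∫ x in closedBall (0 : Fin n → ℝ) 4, |ψ x - v x| ≤ δ
  hc : |c - 1 / 2| ≤ κ
  hβ : 0 < β
  hβ2 : β ≤ 1 / 2
  hδ : 0 ≤ δ
  small : 6 * β + κ + 3 * δ < σ

/-- bad function. -/
noncomputable def bd (ψ v : (Fin n → ℝ) → ℝ) (β : ℝ) (x : Fin n → ℝ) : ℝ :=
  (2 * (ψ x * (1 - ψ x)) + |ψ x - v x|) / β

/-- good points. -/
def Gd (ψ v : (Fin n → ℝ) → ℝ) (β : ℝ) (x : Fin n → ℝ) : Prop :=
  (ψ x ≤ β ∨ 1 - β ≤ ψ x) ∧ |ψ x - v x| ≤ β

section

variable {ψ v H : (Fin n → ℝ) → ℝ} {c κ σ δ β : ℝ}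

lemma Dat.bd_nonneg (D : Dat ψ v H c κ σ δ β) (x : Fin n → ℝ) : 0 ≤ bd ψ v β x := by
  have h0 := D.ψ0 x
  have h1 := D.ψ1 x
  have := D.hβ
  unfold bd
  have : 0 ≤ ψ x * (1 - ψ x) := mul_nonneg h0 (by linarith)
  positivity

lemma Dat.bd_cont (D : Dat ψ v H c κ σ δ β) : Continuous (bd ψ v β) := by
  have := D.cψ
  have := D.cv
  unfold bd
  fun_prop

lemma Dat.one_le_bd (D : Dat ψ v H c κ σ δ β) {x : Fin n → ℝ} (h : ¬ Gd ψ v β x) :
    1 ≤ bd ψ v β x := by
  have h0 := D.ψ0 x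
  have h1 := D.ψ1 x
  have hb := D.hβ
  have hb2 := D.hβ2
  unfold bd
  rw [le_div_iff₀ hb, one_mul]
  have a0 : 0 ≤ ψ x * (1 - ψ x) := mul_nonneg h0 (by linarith)
  have a1 := abs_nonneg (ψ x - v x)
  unfold Gd at h
  rw [not_and_or, not_or] at h
  rcases h with ⟨h2, h3⟩ | h2
  · push Not at h2 h3
    nlinarith
  · push Not at h2
    linarith

lemma Dat.bd_int (D : Dat ψ v H c κ σ δ β) :
    ∫ x in closedBall (0 : Fin n → ℝ) 4, bd ψ v β x ≤ 3 * δ / β := by
  have c1 := D.cψ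
  have c2 := D.cv
  have hb := D.hβ
  have k := isCompact_closedBall (0 : Fin n → ℝ) 4
  have j1 : IntegrableOn (fun x => ψ x * (1 - ψ x)) (closedBall (0 : Fin n → ℝ) 4) :=
    (by fun_prop : Continuous fun x => ψ x * (1 - ψ x)).continuousOn.integrableOn_compact k
  have j2 : IntegrableOn (fun x => |ψ x - v x|) (closedBall (0 : Fin n → ℝ) 4) :=
    (by fun_prop : Continuous fun x => |ψ x - v x|).continuousOn.integrableOn_compact k
  unfold bd
  rw [integral_div, integral_add (j1.const_mul 2) j2, integral_const_mul]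
  have := D.i1
  have := D.i2
  apply div_le_div_of_nonneg_right _ hb.le
  linarith

lemma Dat.three_P (D : Dat ψ v H c κ σ δ β) {x q : Fin n → ℝ} (hx : ‖x‖ ≤ 4) (hq : ‖q‖ ≤ 4)
    (hxq : ‖x + q‖ ≤ 4) (gx : Gd ψ v β x) (gq : Gd ψ v β q) (gs : Gd ψ v β (x + q))
    (px : 1 - β ≤ ψ x) (pq : 1 - β ≤ ψ q) : 1 - β ≤ ψ (x + q) := by
  rcases gs.1 with h | h
  · exfalso
    have a1 := abs_le.mp (D.vH x hx)
    have a2 := abs_le.mp (D.vH q hq)
    have a3 := abs_le.mp (D.vH (x + q) hxq)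
    have a4 := abs_le.mp (D.H3 x q)
    have a5 := abs_le.mp D.hc
    have b1 := abs_le.mp gx.2
    have b2 := abs_le.mp gq.2
    have b3 := abs_le.mp gs.2
    have := D.small
    linarith [a1.1, a1.2, a2.1, a2.2, a3.1, a3.2, a4.1, a4.2, a5.1, a5.2, b1.1, b1.2, b2.1, b2.2,
      b3.1, b3.2]
  · exact h

lemma Dat.three_N (D : Dat ψ v H c κ σ δ β) {x q : Fin n → ℝ} (hx : ‖x‖ ≤ 4) (hq : ‖q‖ ≤ 4)
    (hxq : ‖x + q‖ ≤ 4) (gx : Gd ψ v β x) (gq : Gd ψ v β q) (gs : Gd ψ v β (x + q))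
    (px : ψ x ≤ β) (pq : ψ q ≤ β) : ψ (x + q) ≤ β := by
  rcases gs.1 with h | h
  · exact h
  · exfalso
    have a1 := abs_le.mp (D.vH x hx)
    have a2 := abs_le.mp (D.vH q hq)
    have a3 := abs_le.mp (D.vH (x + q) hxq)
    have a4 := abs_le.mp (D.H3 x q)
    have a5 := abs_le.mp D.hc
    have b1 := abs_le.mp gx.2
    have b2 := abs_le.mp gq.2
    have b3 := abs_le.mp gs.2
    have := D.small
    linarith [a1.1, a1.2, a2.1, a2.2, a3.1, a3.2, a4.1, a4.2, a5.1, a5.2, b1.1, b1.2, b2.1, b2.2,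
      b3.1, b3.2]

/-- error function of the shift inequality -/
noncomputable def er (ψ v : (Fin n → ℝ) → ℝ) (β : ℝ) (q y : Fin n → ℝ) : ℝ :=
  β + bd ψ v β y + bd ψ v β (y + q)

lemma Dat.er_nonneg (D : Dat ψ v H c κ σ δ β) (q y : Fin n → ℝ) : 0 ≤ er ψ v β q y := by
  have := D.bd_nonneg y
  have := D.bd_nonneg (y + q)
  have := D.hβ
  unfold er; linarith

lemma Dat.shift_P (D : Dat ψ v H c κ σ δ β) {q y : Fin n → ℝ} (hq : ‖q‖ ≤ 1) (hy : ‖y‖ ≤ 2)
    (gq : Gd ψ v β q) (pq : 1 - β ≤ ψ q) : - er ψ v β q y ≤ ψ (y + q) - ψ y := by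
  have u0 := D.ψ0 (y + q)
  have u1 := D.ψ1 y
  have n1 := D.bd_nonneg y
  have n2 := D.bd_nonneg (y + q)
  have hb := D.hβ
  unfold er
  by_cases g1 : Gd ψ v β y
  · by_cases g2 : Gd ψ v β (y + q)
    · rcases g1.1 with h | h
      · linarith
      · have := D.three_P (by linarith) (by linarith) ((norm_add_le _ _).trans (by linarith))
          g1 gq g2 h pq
        linarith
    · have := D.one_le_bd g2
      linarith
  · have := D.one_le_bd g1
    linarith

lemma Dat.shift_N (D : Dat ψ v H c κ σ δ β) {q y : Fin n → ℝ} (hq : ‖q‖ ≤ 1) (hy : ‖y‖ ≤ 2)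
    (gq : Gd ψ v β q) (pq : ψ q ≤ β) : ψ (y + q) - ψ y ≤ er ψ v β q y := by
  have u0 := D.ψ0 y
  have u1 := D.ψ1 (y + q)
  have n1 := D.bd_nonneg y
  have n2 := D.bd_nonneg (y + q)
  have hb := D.hβ
  unfold er
  by_cases g1 : Gd ψ v β y
  · by_cases g2 : Gd ψ v β (y + q)
    · rcases g1.1 with h | h
      · have := D.three_N (by linarith) (by linarith) ((norm_add_le _ _).trans (by linarith))
          g1 gq g2 h pq
        linarith
      · linarith
    · have := D.one_le_bd g2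
      linarith
  · have := D.one_le_bd g1
    linarith

lemma Dat.er_int (D : Dat ψ v H c κ σ δ β) {q p : Fin n → ℝ} (hq : ‖q‖ ≤ 1) (hp : ‖p‖ ≤ 1) :
    ∫ y, er ψ v β q y * bmp n (y - p) ≤ 2 ^ n * β + 6 * δ / β := by
  have hb := D.hβ
  have cb := D.bd_cont
  have cb2 : Continuous fun y => bd ψ v β (y + q) := cb.comp (by fun_prop)
  have e1 : ∫ y, er ψ v β q y * bmp n (y - p) =
      β * (∫ y, bmp n (y - p)) + (∫ y, bd ψ v β y * bmp n (y - p)) +
        ∫ y, bd ψ v β (y + q) * bmp n (y - p) := by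
    have k1 : Integrable fun y => β * bmp n (y - p) := int1 continuous_const p
    have k2 := int1 cb p
    have k3 := int1 cb2 p
    have k4 := integral_add (k1.add k2) k3
    have k5 := integral_add k1 k2
    simp only [Pi.add_apply] at k4 k5
    rw [← integral_const_mul, ← k5, ← k4]
    refine integral_congr_ae (Eventually.of_forall fun y => ?_)
    simp only [er]; ring
  have e2 : ∫ y, bd ψ v β (y + q) * bmp n (y - p) = ∫ y, bd ψ v β y * bmp n (y - (p + q)) := by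
    have := V_shift (ψ := bd ψ v β) p q
    rw [← this]; rfl
  rw [e1, e2]
  have a1 := bump_int_one_le (n := n) p
  have a2 := bump_int_le cb D.bd_nonneg p (by linarith)
  have a3 := bump_int_le cb D.bd_nonneg (p + q) ((norm_add_le _ _).trans (by linarith))
  have a4 := D.bd_int
  have : β * ∫ y, bmp n (y - p) ≤ β * 2 ^ n := mul_le_mul_of_nonneg_left a1 hb.le
  have : 3 * δ / β + 3 * δ / β = 6 * δ / β := by ring
  linarith

lemma Dat.V_P (D : Dat ψ v H c κ σ δ β) {q p : Fin n → ℝ} (hq : ‖q‖ ≤ 1) (hp : ‖p‖ ≤ 1)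
    (gq : Gd ψ v β q) (pq : 1 - β ≤ ψ q) :
    - (2 ^ n * β + 6 * δ / β) ≤ Vm ψ (p + q) - Vm ψ p := by
  have cb := D.bd_cont
  have c1 := D.cψ
  have cq : Continuous fun y => ψ (y + q) := c1.comp (by fun_prop)
  have ce : Continuous fun y => er ψ v β q y := by unfold er; fun_prop
  have e1 : Vm ψ (p + q) - Vm ψ p = ∫ y, (ψ (y + q) - ψ y) * bmp n (y - p) := by
    rw [V_shift]
    unfold Vm
    rw [← integral_sub (int1 cq p) (int1 c1 p)]
    refine integral_congr_ae (Eventually.of_forall fun y => ?_)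
    simp only; ring
  have e2 := D.er_int hq hp
  have e3 : ∫ y, (- er ψ v β q y) * bmp n (y - p) ≤ ∫ y, (ψ (y + q) - ψ y) * bmp n (y - p) := by
    refine integral_mono (int1 ce.neg p) (int1 (cq.sub c1) p) fun y => ?_
    simp only
    by_cases hy : ‖y - p‖ ≤ 1
    · have : ‖y‖ ≤ 2 := by
        have := norm_sub_norm_le y p
        linarith
      exact mul_le_mul_of_nonneg_right (D.shift_P hq this gq pq) (bmp_nonneg _)
    · rw [bmp_zero (by linarith)]; simp
  have e4 : ∫ y, (- er ψ v β q y) * bmp n (y - p) = - ∫ y, er ψ v β q y * bmp n (y - p) := by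
    rw [← integral_neg]
    refine integral_congr_ae (Eventually.of_forall fun y => ?_)
    simp only; ring
  rw [e1]; linarith

lemma Dat.V_N (D : Dat ψ v H c κ σ δ β) {q p : Fin n → ℝ} (hq : ‖q‖ ≤ 1) (hp : ‖p‖ ≤ 1)
    (gq : Gd ψ v β q) (pq : ψ q ≤ β) :
    Vm ψ (p + q) - Vm ψ p ≤ 2 ^ n * β + 6 * δ / β := by
  have cb := D.bd_cont
  have c1 := D.cψ
  have cq : Continuous fun y => ψ (y + q) := c1.comp (by fun_prop)
  have ce : Continuous fun y => er ψ v β q y := by unfold er; fun_prop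
  have e1 : Vm ψ (p + q) - Vm ψ p = ∫ y, (ψ (y + q) - ψ y) * bmp n (y - p) := by
    rw [V_shift]
    unfold Vm
    rw [← integral_sub (int1 cq p) (int1 c1 p)]
    refine integral_congr_ae (Eventually.of_forall fun y => ?_)
    simp only; ring
  have e2 := D.er_int hq hp
  have e3 : ∫ y, (ψ (y + q) - ψ y) * bmp n (y - p) ≤ ∫ y, er ψ v β q y * bmp n (y - p) := by
    refine integral_mono (int1 (cq.sub c1) p) (int1 ce p) fun y => ?_
    simp only
    by_cases hy : ‖y - p‖ ≤ 1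
    · have : ‖y‖ ≤ 2 := by
        have := norm_sub_norm_le y p
        linarith
      exact mul_le_mul_of_nonneg_right (D.shift_N hq this gq pq) (bmp_nonneg _)
    · rw [bmp_zero (by linarith)]; simp
  rw [e1]; linarith

/-- `L¹` modulus. -/
noncomputable def Eq (ψ : (Fin n → ℝ) → ℝ) (q : Fin n → ℝ) : ℝ :=
  ∫ y, |ψ (y + q) - ψ y| * bmp n y

lemma Dat.Eq_le (D : Dat ψ v H c κ σ δ β) {q : Fin n → ℝ} (hq : ‖q‖ ≤ 1) :
    Eq ψ q ≤ |Vm ψ q - Vm ψ 0| + 2 * (2 ^ n * β + 6 * δ / β) + 2 ^ n * bd ψ v β q := by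
  have cb := D.bd_cont
  have c1 := D.cψ
  have hb := D.hβ
  have hd := D.hδ
  have nb := D.bd_nonneg q
  have cq : Continuous fun y => ψ (y + q) := c1.comp (by fun_prop)
  have ce : Continuous fun y => er ψ v β q y := by unfold er; fun_prop
  have ca : Continuous fun y => |ψ (y + q) - ψ y| := (cq.sub c1).abs
  have I1 := int1 ca 0
  simp only [sub_zero] at I1
  have I2 := int1 (cq.sub c1) 0
  simp only [sub_zero, Pi.sub_apply] at I2
  have I3 := int1 ce 0
  simp only [sub_zero] at I3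
  have e0 := D.er_int hq (p := 0) (by simp)
  simp only [sub_zero] at e0
  have e1 : Vm ψ q - Vm ψ 0 = ∫ y, (ψ (y + q) - ψ y) * bmp n y := by
    have := V_shift (ψ := ψ) 0 q
    rw [zero_add] at this
    rw [this]
    unfold Vm
    rw [← integral_sub (int1 cq 0) (int1 c1 0)]
    refine integral_congr_ae (Eventually.of_forall fun y => ?_)
    simp only [sub_zero]; ring
  have s0 : 0 ≤ 2 ^ n * β + 6 * δ / β := by positivity
  by_cases gq : Gd ψ v β q
  · have key : Eq ψ q ≤ |Vm ψ q - Vm ψ 0| + 2 * ∫ y, er ψ v β q y * bmp n y := by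
      rcases gq.1 with h | h
      · have : Eq ψ q ≤ ∫ y, (-((ψ (y + q) - ψ y) * bmp n y) + 2 * (er ψ v β q y * bmp n y)) := by
          refine integral_mono I1 (I2.neg.add (I3.const_mul 2)) fun y => ?_
          simp only
          by_cases hy : ‖y‖ ≤ 1
          · have h1 := D.shift_N hq (by linarith : ‖y‖ ≤ 2) gq h
            have h2 := D.er_nonneg q y
            have h3 : |ψ (y + q) - ψ y| ≤ -(ψ (y + q) - ψ y) + 2 * er ψ v β q y := by
              rw [abs_le]; constructor <;> linarith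
            have := mul_le_mul_of_nonneg_right h3 (bmp_nonneg y)
            linarith
          · rw [bmp_zero (by linarith)]; simp
        have k := integral_add I2.neg (I3.const_mul 2)
        simp only [Pi.neg_apply] at k
        rw [k, integral_neg, integral_const_mul, ← e1] at this
        have := neg_abs_le (Vm ψ q - Vm ψ 0)
        linarith
      · have : Eq ψ q ≤ ∫ y, ((ψ (y + q) - ψ y) * bmp n y + 2 * (er ψ v β q y * bmp n y)) := by
          refine integral_mono I1 (I2.add (I3.const_mul 2)) fun y => ?_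
          simp only
          by_cases hy : ‖y‖ ≤ 1
          · have h1 := D.shift_P hq (by linarith : ‖y‖ ≤ 2) gq h
            have h2 := D.er_nonneg q y
            have h3 : |ψ (y + q) - ψ y| ≤ (ψ (y + q) - ψ y) + 2 * er ψ v β q y := by
              rw [abs_le]; constructor <;> linarith
            have := mul_le_mul_of_nonneg_right h3 (bmp_nonneg y)
            linarith
          · rw [bmp_zero (by linarith)]; simp
        rw [integral_add I2 (I3.const_mul 2), integral_const_mul, ← e1] at this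
        have := le_abs_self (Vm ψ q - Vm ψ 0)
        linarith
    have : 0 ≤ 2 ^ n * bd ψ v β q := by positivity
    linarith
  · have h1 := D.one_le_bd gq
    have h2 : Eq ψ q ≤ ∫ y, bmp n (y - 0) := by
      simp only [sub_zero]
      have I4 := int1 (n := n) (continuous_const (y := (1:ℝ))) 0
      simp only [sub_zero, one_mul] at I4
      refine integral_mono I1 I4 fun y => ?_
      simp only
      have h3 : |ψ (y + q) - ψ y| ≤ 1 := by
        rw [abs_le]
        constructor <;> linarith [D.ψ0 y, D.ψ1 y, D.ψ0 (y + q), D.ψ1 (y + q)]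
      calc _ ≤ 1 * bmp n y := mul_le_mul_of_nonneg_right h3 (bmp_nonneg y)
        _ = _ := one_mul _
    have h3 := bump_int_one_le (n := n) 0
    have h4 : (2:ℝ) ^ n ≤ 2 ^ n * bd ψ v β q := by
      have : (0:ℝ) < 2 ^ n := by positivity
      nlinarith
    have := abs_nonneg (Vm ψ q - Vm ψ 0)
    linarith

lemma int_shift_ge {ψ : (Fin n → ℝ) → ℝ} (hψ : Continuous ψ) (h0 : ∀ x, 0 ≤ ψ x)
    (h1 : ∀ x, ψ x ≤ 1) (y : Fin n → ℝ) (hy : ‖y‖ ≤ 1/2) :
    ∫ x in closedBall (0 : Fin n → ℝ) (1/2), (ψ x - ψ y) ^ 2 ≤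
      ∫ q in closedBall (0 : Fin n → ℝ) 1, |ψ (y + q) - ψ y| := by
  have hpre : (fun z => y + z) ⁻¹' (closedBall y 1) = closedBall (0 : Fin n → ℝ) 1 := by
    ext z; simp [dist_eq_norm]
  have h2 := (measurePreserving_add_left volume y).setIntegral_preimage_emb
    (measurableEmbedding_addLeft y) (fun x => |ψ x - ψ y|) (closedBall y 1)
  rw [hpre] at h2
  rw [h2]
  have ci : Continuous fun x => |ψ x - ψ y| := by fun_prop
  have cs : Continuous fun x => (ψ x - ψ y) ^ 2 := by fun_prop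
  have hsub : closedBall (0 : Fin n → ℝ) (1/2) ⊆ closedBall y 1 := by
    intro x hx
    rw [mem_closedBall, dist_eq_norm] at hx ⊢
    rw [sub_zero] at hx
    exact (norm_sub_le _ _).trans (by linarith)
  calc ∫ x in closedBall (0 : Fin n → ℝ) (1/2), (ψ x - ψ y) ^ 2
      ≤ ∫ x in closedBall (0 : Fin n → ℝ) (1/2), |ψ x - ψ y| := by
        refine setIntegral_mono_on (cs.continuousOn.integrableOn_compact (isCompact_closedBall _ _))
          (ci.continuousOn.integrableOn_compact (isCompact_closedBall _ _))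
          measurableSet_closedBall fun x _ => ?_
        have h3 : |ψ x - ψ y| ≤ 1 := by
          rw [abs_le]; constructor <;> linarith [h0 x, h1 x, h0 y, h1 y]
        rw [← sq_abs]
        have := abs_nonneg (ψ x - ψ y)
        nlinarith
    _ ≤ ∫ x in closedBall y 1, |ψ x - ψ y| := by
        refine setIntegral_mono_set
          (ci.continuousOn.integrableOn_compact (isCompact_closedBall _ _))
          (Eventually.of_forall fun x => abs_nonneg _) hsub.eventuallyLE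

lemma Eq_int_ge {ψ : (Fin n → ℝ) → ℝ} (hψ : Continuous ψ) (h0 : ∀ x, 0 ≤ ψ x)
    (h1 : ∀ x, ψ x ≤ 1) :
    2 * (∫ x in closedBall (0 : Fin n → ℝ) (1/2), ψ x ^ 2) -
      2 * (∫ x in closedBall (0 : Fin n → ℝ) (1/2), ψ x) ^ 2 ≤
      ∫ q in closedBall (0 : Fin n → ℝ) 1, Eq ψ q := by
  have k1 := isCompact_closedBall (0 : Fin n → ℝ) 1
  have kh := isCompact_closedBall (0 : Fin n → ℝ) (1/2)
  have cF : Continuous fun z : (Fin n → ℝ) × (Fin n → ℝ) => |ψ (z.2 + z.1) - ψ z.2| * bmp n z.2 :=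
    ((hψ.comp (by fun_prop)).sub (hψ.comp (by fun_prop))).abs.mul (bmp_cont.comp (by fun_prop))
  have hE : ∀ q : Fin n → ℝ, Eq ψ q =
      ∫ y in closedBall (0 : Fin n → ℝ) 1, |ψ (y + q) - ψ y| * bmp n y := by
    intro q
    unfold Eq
    refine (setIntegral_eq_integral_of_forall_compl_eq_zero fun y hy => ?_).symm
    rw [mem_closedBall, dist_eq_norm, sub_zero, not_le] at hy
    rw [bmp_zero hy.le, mul_zero]
  have hI : Integrable (Function.uncurry fun (q y : Fin n → ℝ) => |ψ (y + q) - ψ y| * bmp n y)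
      ((volume.restrict (closedBall (0 : Fin n → ℝ) 1)).prod
        (volume.restrict (closedBall (0 : Fin n → ℝ) 1))) := by
    rw [Measure.prod_restrict]
    exact (cF.continuousOn.integrableOn_compact (k1.prod k1))
  have hswap : ∫ q in closedBall (0 : Fin n → ℝ) 1, Eq ψ q =
      ∫ y in closedBall (0 : Fin n → ℝ) 1, ∫ q in closedBall (0 : Fin n → ℝ) 1,
        |ψ (y + q) - ψ y| * bmp n y := by
    simp only [hE]
    exact integral_integral_swap hI
  have hI2 : IntegrableOn (fun y => ∫ q in closedBall (0 : Fin n → ℝ) 1,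
        |ψ (y + q) - ψ y| * bmp n y) (closedBall (0 : Fin n → ℝ) 1) := hI.integral_prod_right
  have hsub : closedBall (0 : Fin n → ℝ) (1/2) ⊆ closedBall (0 : Fin n → ℝ) 1 :=
    closedBall_subset_closedBall (by norm_num)
  have hge : ∫ y in closedBall (0 : Fin n → ℝ) (1/2),
      ∫ x in closedBall (0 : Fin n → ℝ) (1/2), (ψ x - ψ y) ^ 2 ≤
      ∫ y in closedBall (0 : Fin n → ℝ) 1, ∫ q in closedBall (0 : Fin n → ℝ) 1,
        |ψ (y + q) - ψ y| * bmp n y := by
    refine le_trans ?_ (setIntegral_mono_set hI2 (Eventually.of_forall fun y =>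
      integral_nonneg fun q => mul_nonneg (abs_nonneg _) (bmp_nonneg _)) hsub.eventuallyLE)
    refine setIntegral_mono_on ?_ (hI2.mono_set hsub) measurableSet_closedBall fun y hy => ?_
    · have cG : Continuous fun z : (Fin n → ℝ) × (Fin n → ℝ) => (ψ z.2 - ψ z.1) ^ 2 := by fun_prop
      have : Integrable (Function.uncurry fun (y x : Fin n → ℝ) => (ψ x - ψ y) ^ 2)
        ((volume.restrict (closedBall (0 : Fin n → ℝ) (1/2))).prod
          (volume.restrict (closedBall (0 : Fin n → ℝ) (1/2)))) := by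
        rw [Measure.prod_restrict]
        exact (cG.continuousOn.integrableOn_compact (kh.prod kh))
      exact this.integral_prod_left
    · rw [mem_closedBall, dist_eq_norm, sub_zero] at hy
      refine (int_shift_ge hψ h0 h1 y hy).trans (le_of_eq ?_)
      rw [bmp_one hy]; simp
  rw [hswap]
  refine le_trans (le_of_eq ?_) hge
  have v1 : volume.real (closedBall (0 : Fin n → ℝ) (1/2)) = 1 := by
    rw [measureReal_def, volc (1/2) (by norm_num)]; norm_num
  have J1 : IntegrableOn (fun x => ψ x ^ 2) (closedBall (0 : Fin n → ℝ) (1/2)) :=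
    (by fun_prop : Continuous fun x => ψ x ^ 2).continuousOn.integrableOn_compact kh
  have J2 : IntegrableOn ψ (closedBall (0 : Fin n → ℝ) (1/2)) :=
    hψ.continuousOn.integrableOn_compact kh
  have J3 : ∀ c : ℝ, IntegrableOn (fun _ : Fin n → ℝ => c) (closedBall (0 : Fin n → ℝ) (1/2)) :=
    fun c => integrableOn_const (vol_ne _ _)
  have hy : ∀ y : Fin n → ℝ, ∫ x in closedBall (0 : Fin n → ℝ) (1/2), (ψ x - ψ y) ^ 2 =
      (∫ x in closedBall (0 : Fin n → ℝ) (1/2), ψ x ^ 2) -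
        2 * (∫ x in closedBall (0 : Fin n → ℝ) (1/2), ψ x) * ψ y + ψ y ^ 2 := by
    intro y
    have e : ∀ x, (ψ x - ψ y) ^ 2 = ψ x ^ 2 - (2 * ψ y) * ψ x + ψ y ^ 2 := fun x => by ring
    simp only [e]
    have j : IntegrableOn (fun x => ψ x ^ 2 - (2 * ψ y) * ψ x) (closedBall (0 : Fin n → ℝ) (1/2)) :=
      J1.sub (J2.const_mul _)
    rw [integral_add j (J3 _), integral_sub J1 (J2.const_mul _),
      integral_const_mul, setIntegral_const, v1]
    simp only [smul_eq_mul, one_mul]; ring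
  simp only [hy]
  have j : IntegrableOn (fun y => (∫ x in closedBall (0 : Fin n → ℝ) (1/2), ψ x ^ 2) -
      (2 * ∫ x in closedBall (0 : Fin n → ℝ) (1/2), ψ x) * ψ y)
      (closedBall (0 : Fin n → ℝ) (1/2)) := (J3 _).sub (J2.const_mul _)
  rw [integral_add j J1, integral_sub (J3 _) (J2.const_mul _),
      integral_const_mul, setIntegral_const, v1]
  simp only [smul_eq_mul, one_mul]; ring

lemma Dat.lower (D : Dat ψ v H c κ σ δ β) :
    1 / 2 - 2 * (2 * δ + κ) ^ 2 - 2 * δ ≤ ∫ q in closedBall (0 : Fin n → ℝ) 1, Eq ψ q := by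
  have hψ := D.cψ
  have hv := D.cv
  have kh := isCompact_closedBall (0 : Fin n → ℝ) (1/2)
  have k4 := isCompact_closedBall (0 : Fin n → ℝ) 4
  have hsub : closedBall (0 : Fin n → ℝ) (1/2) ⊆ closedBall (0 : Fin n → ℝ) 4 :=
    closedBall_subset_closedBall (by norm_num)
  have v1 : volume.real (closedBall (0 : Fin n → ℝ) (1/2)) = 1 := by
    rw [measureReal_def, volc (1/2) (by norm_num)]; norm_num
  have J1 : IntegrableOn (fun x => ψ x ^ 2) (closedBall (0 : Fin n → ℝ) (1/2)) :=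
    (by fun_prop : Continuous fun x => ψ x ^ 2).continuousOn.integrableOn_compact kh
  have J2 : IntegrableOn ψ (closedBall (0 : Fin n → ℝ) (1/2)) :=
    hψ.continuousOn.integrableOn_compact kh
  have J2v : IntegrableOn v (closedBall (0 : Fin n → ℝ) (1/2)) :=
    hv.continuousOn.integrableOn_compact kh
  have J3 : ∀ c : ℝ, IntegrableOn (fun _ : Fin n → ℝ => c) (closedBall (0 : Fin n → ℝ) (1/2)) :=
    fun c => integrableOn_const (vol_ne _ _)
  have J4 : IntegrableOn (fun x => ψ x * (1 - ψ x)) (closedBall (0 : Fin n → ℝ) 4) :=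
    (by fun_prop : Continuous fun x => ψ x * (1 - ψ x)).continuousOn.integrableOn_compact k4
  have J5 : IntegrableOn (fun x => |ψ x - v x|) (closedBall (0 : Fin n → ℝ) 4) :=
    (by fun_prop : Continuous fun x => |ψ x - v x|).continuousOn.integrableOn_compact k4
  -- ∫ ψ² ≥ ∫ ψ - δ
  have a1 : (∫ x in closedBall (0 : Fin n → ℝ) (1/2), ψ x) -
      (∫ x in closedBall (0 : Fin n → ℝ) (1/2), ψ x ^ 2) ≤ δ := by
    rw [← integral_sub J2 J1]
    refine le_trans (le_of_eq ?_) ((setIntegral_mono_set J4 (Eventually.of_forall fun x => ?_)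
      hsub.eventuallyLE).trans D.i1)
    · refine integral_congr_ae (Eventually.of_forall fun x => ?_)
      simp only; ring
    · exact mul_nonneg (D.ψ0 x) (by linarith [D.ψ1 x])
  have a2 : |(∫ x in closedBall (0 : Fin n → ℝ) (1/2), ψ x) -
      (∫ x in closedBall (0 : Fin n → ℝ) (1/2), v x)| ≤ δ := by
    rw [← integral_sub J2 J2v]
    refine (abs_integral_le_integral_abs).trans ?_
    exact (setIntegral_mono_set J5 (Eventually.of_forall fun x => abs_nonneg _)
      hsub.eventuallyLE).trans D.i2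
  have a3 : |(∫ x in closedBall (0 : Fin n → ℝ) (1/2), v x) - c| ≤ δ := by
    have hneg : ∫ x in closedBall (0 : Fin n → ℝ) (1/2), v (-x) =
        ∫ x in closedBall (0 : Fin n → ℝ) (1/2), v x := by
      have hpre : (fun z : Fin n → ℝ => -z) ⁻¹' (closedBall 0 (1/2)) =
          closedBall (0 : Fin n → ℝ) (1/2) := by
        ext z; simp
      have h2 := (Measure.measurePreserving_neg (volume : Measure (Fin n → ℝ))).setIntegral_preimage_emb
        (measurableEmbedding_neg) v (closedBall 0 (1/2))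
      rw [hpre] at h2
      exact h2
    have J6 : IntegrableOn (fun x => v (-x)) (closedBall (0 : Fin n → ℝ) (1/2)) :=
      (hv.comp continuous_neg).continuousOn.integrableOn_compact kh
    have b : |∫ x in closedBall (0 : Fin n → ℝ) (1/2), (v x + v (-x) - 2 * c)| ≤ 2 * δ := by
      have := norm_setIntegral_le_of_norm_le_const (f := fun x : Fin n → ℝ => v x + v (-x) - 2 * c)
        (C := 2 * δ) (vol_ne (1/2) (0 : Fin n → ℝ)).lt_top (fun x hx => by
          rw [mem_closedBall, dist_eq_norm, sub_zero] at hx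
          have c1 := abs_le.mp (D.vH x (by linarith))
          have c2 := abs_le.mp (D.vH (-x) (by rw [norm_neg]; linarith))
          rw [D.odd x] at c2
          rw [Real.norm_eq_abs, abs_le]
          constructor <;> linarith [c1.1, c1.2, c2.1, c2.2])
      rw [v1, mul_one, Real.norm_eq_abs] at this
      exact this
    have j : IntegrableOn (fun x => v x + v (-x)) (closedBall (0 : Fin n → ℝ) (1/2)) :=
      J2v.add J6
    rw [integral_sub j (J3 _), integral_add J2v J6, hneg, setIntegral_const, v1,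
      one_smul] at b
    rw [abs_le] at b ⊢
    constructor <;> linarith [b.1, b.2]
  have a4 := Eq_int_ge hψ D.ψ0 D.ψ1
  set m := ∫ x in closedBall (0 : Fin n → ℝ) (1/2), ψ x with hm
  have a5 : |m - 1 / 2| ≤ 2 * δ + κ := by
    have := abs_le.mp a2
    have := abs_le.mp a3
    have := abs_le.mp D.hc
    rw [abs_le]
    constructor <;> linarith
  have a6 : (m - 1 / 2) ^ 2 ≤ (2 * δ + κ) ^ 2 := by
    rw [← sq_abs (m - 1 / 2)]
    exact pow_le_pow_left₀ (abs_nonneg _) a5 2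
  nlinarith

lemma Dat.exists_p (D : Dat ψ v H c κ σ δ β)
    (hs : 2 ^ n * (2 * (2 ^ n * β + 6 * δ / β)) + 2 ^ n * (3 * δ / β) +
      2 * (2 * δ + κ) ^ 2 + 2 * δ < 3 / 8) :
    ∃ p : Fin n → ℝ, ‖p‖ ≤ 1 ∧ 1 / (8 * 2 ^ n) < ‖Am ψ p‖ := by
  by_contra hcon
  push Not at hcon
  have hψ := D.cψ
  have cb := D.bd_cont
  have k1 := isCompact_closedBall (0 : Fin n → ℝ) 1
  have k4 := isCompact_closedBall (0 : Fin n → ℝ) 4
  have h1 := V_lip hψ D.ψ0 D.ψ1 hcon
  have h2 := D.lower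
  have I1 : IntegrableOn (bd ψ v β) (closedBall (0 : Fin n → ℝ) 1) :=
    cb.continuousOn.integrableOn_compact k1
  have I4 : IntegrableOn (bd ψ v β) (closedBall (0 : Fin n → ℝ) 4) :=
    cb.continuousOn.integrableOn_compact k4
  have J3 : ∀ c : ℝ, IntegrableOn (fun _ : Fin n → ℝ => c) (closedBall (0 : Fin n → ℝ) 1) :=
    fun c => integrableOn_const (vol_ne _ _)
  set A : ℝ := 1 / (8 * 2 ^ n) + 2 * (2 ^ n * β + 6 * δ / β) with hA
  have h3 : ∫ q in closedBall (0 : Fin n → ℝ) 1, Eq ψ q ≤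
      ∫ q in closedBall (0 : Fin n → ℝ) 1, (A + 2 ^ n * bd ψ v β q) := by
    refine integral_mono_of_nonneg (Eventually.of_forall fun q =>
      integral_nonneg fun y => mul_nonneg (abs_nonneg _) (bmp_nonneg _))
      ((J3 A).add (I1.const_mul _)) ?_
    refine (ae_restrict_iff' measurableSet_closedBall).mpr (Eventually.of_forall fun q hq => ?_)
    rw [mem_closedBall, dist_eq_norm, sub_zero] at hq
    have := D.Eq_le hq
    have := h1 q hq
    simp only [hA]; linarith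
  have h4 : ∫ q in closedBall (0 : Fin n → ℝ) 1, (A + 2 ^ n * bd ψ v β q) ≤
      2 ^ n * A + 2 ^ n * (3 * δ / β) := by
    rw [integral_add (J3 A) (I1.const_mul _), integral_const_mul, setIntegral_const,
      measureReal_def, volc 1 (by norm_num)]
    have h5 : ∫ q in closedBall (0 : Fin n → ℝ) 1, bd ψ v β q ≤ 3 * δ / β := by
      refine (setIntegral_mono_set I4 (Eventually.of_forall fun x => D.bd_nonneg x)
        (closedBall_subset_closedBall (by norm_num)).eventuallyLE).trans D.bd_int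
    have h6 : (2:ℝ) ^ n * (∫ q in closedBall (0 : Fin n → ℝ) 1, bd ψ v β q) ≤
        2 ^ n * (3 * δ / β) := mul_le_mul_of_nonneg_left h5 (by positivity)
    simp only [smul_eq_mul, mul_one]
    linarith
  have h7 : (2:ℝ) ^ n * A = 1 / 8 + 2 ^ n * (2 * (2 ^ n * β + 6 * δ / β)) := by
    rw [hA]
    have : (2:ℝ) ^ n ≠ 0 := by positivity
    field_simp
  linarith

end

lemma slab_vol (a : Fin n → ℝ) (ha : ∑ i, a i ^ 2 = 1) {t θ : ℝ} (ht : 0 < t) (hθ : 0 ≤ θ) :
    volume.real {x : Fin n → ℝ | ‖x‖ ≤ t ∧ |∑ i, a i * x i| ≤ θ} ≤ n * θ * (2 * t) ^ n / t := by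
  classical
  have hn : 0 < n := by
    rcases Nat.eq_zero_or_pos n with h | h
    · subst h; simp at ha
    · exact h
  have hnR : (0:ℝ) < n := by exact_mod_cast hn
  have hn1 : (1:ℝ) ≤ n := by exact_mod_cast hn
  obtain ⟨i, hi⟩ : ∃ i, 1 / (n:ℝ) ≤ |a i| := by
    by_contra hcon
    push Not at hcon
    have : ∑ i, a i ^ 2 < ∑ i : Fin n, (1 / (n:ℝ)) ^ 2 := by
      refine Finset.sum_lt_sum_of_nonempty ⟨⟨0, hn⟩, Finset.mem_univ _⟩ fun i _ => ?_
      rw [← sq_abs]
      exact pow_lt_pow_left₀ (hcon i) (abs_nonneg _) (by norm_num)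
    rw [ha, Finset.sum_const, Finset.card_univ, Fintype.card_fin, nsmul_eq_mul] at this
    have h2 : (n:ℝ) * (1 / (n:ℝ)) ^ 2 = 1 / n := by field_simp
    rw [h2] at this
    have : 1 / (n:ℝ) ≤ 1 := by rw [div_le_one hnR]; exact hn1
    linarith
  have hai : a i ≠ 0 := by
    intro h
    rw [h, abs_zero] at hi
    have : 0 < 1 / (n:ℝ) := by positivity
    linarith
  set M : Matrix (Fin n) (Fin n) ℝ := (1 : Matrix (Fin n) (Fin n) ℝ).updateRow i a with hM
  have hdet : M.det = a i := by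
    have h1 : (1 : Matrix (Fin n) (Fin n) ℝ).cramer a i = a i := by simp
    rw [Matrix.cramer_apply] at h1
    rw [← Matrix.det_transpose, hM, ← Matrix.updateCol_transpose, Matrix.transpose_one]
    exact h1
  have hdet2 : LinearMap.det (Matrix.toLin' M) = a i := by rw [LinearMap.det_toLin', hdet]
  have hpre := Measure.addHaar_preimage_linearMap (volume : Measure (Fin n → ℝ))
    (f := Matrix.toLin' M) (by rw [hdet2]; exact hai)
    (Set.pi univ fun j => Icc (-(Function.update (fun _ => t) i θ j))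
      (Function.update (fun _ => t) i θ j))
  have hsub : {x : Fin n → ℝ | ‖x‖ ≤ t ∧ |∑ i, a i * x i| ≤ θ} ⊆ (Matrix.toLin' M) ⁻¹'
      (Set.pi univ fun j => Icc (-(Function.update (fun _ => t) i θ j))
      (Function.update (fun _ => t) i θ j)) := by
    rintro x ⟨h1, h2⟩
    rw [mem_preimage, Set.mem_univ_pi]
    intro j
    rw [Matrix.toLin'_apply, mem_Icc, ← abs_le]
    by_cases hj : j = i
    · subst hj
      simp only [Function.update_self]
      rw [hM, Matrix.mulVec, Matrix.updateRow_self]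
      simpa [dotProduct] using h2
    · rw [Function.update_of_ne hj, hM, Matrix.mulVec, Matrix.updateRow_ne hj]
      have h3 : (1 : Matrix (Fin n) (Fin n) ℝ) j ⬝ᵥ x = x j := by
        have := congrFun (Matrix.one_mulVec x) j
        exact this
      rw [h3]
      exact (norm_le_pi_norm x j).trans h1
  have hprod : t * ∏ j, (Function.update (fun _ => t) i θ j -
      -(Function.update (fun _ => t) i θ j)) = θ * (2 * t) ^ n := by
    have e : ∀ j, (Function.update (fun _ => t) i θ j -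
      -(Function.update (fun _ => t) i θ j)) = Function.update (fun _ : Fin n => 2 * t) i (2 * θ) j := by
      intro j
      by_cases hj : j = i
      · subst hj; simp; ring
      · simp [Function.update_of_ne hj]; ring
    simp only [e]
    rw [Finset.prod_update_of_mem (Finset.mem_univ i), Finset.sdiff_singleton_eq_erase]
    have h5 := Finset.mul_prod_erase Finset.univ (fun _ : Fin n => 2 * t) (Finset.mem_univ i)
    simp only [Finset.prod_const, Finset.card_univ, Fintype.card_fin] at h5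
    rw [← h5]
    simp only [Finset.prod_const]
    ring
  have hvol : volume (Set.pi univ fun j => Icc (-(Function.update (fun _ => t) i θ j))
      (Function.update (fun _ => t) i θ j)) = ENNReal.ofReal (θ * (2 * t) ^ n / t) := by
    rw [volume_pi_pi]
    simp only [Real.volume_Icc]
    rw [← ENNReal.ofReal_prod_of_nonneg]
    · congr 1
      rw [eq_div_iff ht.ne', mul_comm]; exact hprod
    · intro j _
      by_cases hj : j = i
      · subst hj; simp; linarith
      · simp [Function.update_of_ne hj]; linarith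
  rw [hdet2, hvol, ← ENNReal.ofReal_mul (abs_nonneg _)] at hpre
  have hle := (measure_mono hsub).trans (le_of_eq hpre)
  rw [measureReal_def]
  have hfin : 0 ≤ |(a i)⁻¹| * (θ * (2 * t) ^ n / t) := by positivity
  refine (ENNReal.toReal_le_of_le_ofReal hfin hle).trans ?_
  have h6 : |(a i)⁻¹| ≤ n := by
    rw [abs_inv, inv_le_comm₀ (abs_pos.mpr hai) hnR]
    simpa using hi
  calc |(a i)⁻¹| * (θ * (2 * t) ^ n / t) ≤ n * (θ * (2 * t) ^ n / t) :=
        mul_le_mul_of_nonneg_right h6 (by positivity)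
    _ = n * θ * (2 * t) ^ n / t := by ring

section

variable {ψ v H : (Fin n → ℝ) → ℝ} {c κ σ δ β : ℝ}

lemma Dat.core (D : Dat ψ v H c κ σ δ β)
    (hs : 2 ^ n * (2 * (2 ^ n * β + 6 * δ / β)) + 2 ^ n * (3 * δ / β) +
      2 * (2 * δ + κ) ^ 2 + 2 * δ < 3 / 8)
    {K : ℝ} (hK0 : 0 ≤ K) (hK : ∀ y h : Fin n → ℝ,
    |bmp n (y + h) - bmp n y - fderiv ℝ (bmp n : (Fin n → ℝ) → ℝ) y h| ≤ K * ‖h‖ ^ 2)
    {t : ℝ} (ht : 0 < t) (ht1 : t ≤ 1) :
    ∃ a : Fin n → ℝ, ∑ i, a i ^ 2 = 1 ∧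
      ∫ x in closedBall (0 : Fin n → ℝ) t, |ψ x - (if 0 < ∑ i, a i * x i then 1 else 0)| ≤
        β * (2 * t) ^ n + 3 * δ / β +
          n * ((2 ^ n * β + 6 * δ / β + 4 ^ n * K * t ^ 2) * (n * (8 * 2 ^ n))) * (2 * t) ^ n / t := by
  classical
  obtain ⟨p, hp, hA⟩ := D.exists_p hs
  have hψ := D.cψ
  have hb := D.hβ
  have hd := D.hδ
  have cb := D.bd_cont
  set A := Am ψ p with hAdef
  set ai : Fin n → ℝ := fun i => A (Pi.single i 1) with hai
  have hAx : ∀ x : Fin n → ℝ, A x = ∑ i, ai i * x i := by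
    intro x
    have e : x = ∑ i, x i • (Pi.single i 1 : Fin n → ℝ) := by
      ext j; simp [Finset.sum_apply, Pi.single_apply]
    conv_lhs => rw [e]
    rw [map_sum]
    refine Finset.sum_congr rfl fun i _ => ?_
    rw [map_smul, smul_eq_mul, mul_comm]
  set al := √(∑ i, ai i ^ 2) with hal
  have hS0 : 0 ≤ ∑ i, ai i ^ 2 := Finset.sum_nonneg fun i _ => sq_nonneg _
  have hai_le : ∀ i, |ai i| ≤ al := by
    intro i
    apply Real.abs_le_sqrt
    exact Finset.single_le_sum (f := fun i => ai i ^ 2) (fun i _ => sq_nonneg _) (Finset.mem_univ i)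
  have hnorm : ‖A‖ ≤ n * al := by
    refine A.opNorm_le_bound (by positivity) fun x => ?_
    rw [hAx, Real.norm_eq_abs]
    calc |∑ i, ai i * x i| ≤ ∑ i, |ai i * x i| := Finset.abs_sum_le_sum_abs _ _
      _ ≤ ∑ i : Fin n, al * ‖x‖ := by
          refine Finset.sum_le_sum fun i _ => ?_
          rw [abs_mul]
          exact mul_le_mul (hai_le i) (norm_le_pi_norm x i) (abs_nonneg _) (Real.sqrt_nonneg _)
      _ = n * al * ‖x‖ := by simp; ring
  have h8 : (0:ℝ) < 8 * 2 ^ n := by positivity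
  have hal0 : 0 < al := by
    by_contra h
    have h0 : al ≤ 0 := not_lt.mp h
    have : (n:ℝ) * al ≤ 0 := mul_nonpos_of_nonneg_of_nonpos (by positivity) h0
    have : 0 < 1 / (8 * (2:ℝ) ^ n) := by positivity
    linarith
  have hinv : 1 / al ≤ n * (8 * 2 ^ n) := by
    have h1 : 1 / (8 * (2:ℝ) ^ n) < n * al := hA.trans_le hnorm
    rw [div_le_iff₀ hal0]
    rw [div_lt_iff₀ h8] at h1
    nlinarith
  set a : Fin n → ℝ := fun i => ai i / al with ha
  have ha1 : ∑ i, a i ^ 2 = 1 := by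
    simp only [ha, div_pow]
    rw [← Finset.sum_div, hal, Real.sq_sqrt hS0, div_self]
    intro h0
    rw [hal, h0, Real.sqrt_zero] at hal0
    exact lt_irrefl _ hal0
  have hax : ∀ x : Fin n → ℝ, ∑ i, a i * x i = A x / al := by
    intro x
    rw [hAx, Finset.sum_div]
    refine Finset.sum_congr rfl fun i _ => ?_
    simp only [ha]; ring
  set S := 2 ^ n * β + 6 * δ / β + 4 ^ n * K * t ^ 2 with hS
  have hS0 : 0 ≤ S := by positivity
  set θ := S * (n * (8 * 2 ^ n)) with hθ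
  have hθ0 : 0 ≤ θ := by positivity
  have hSθ : S / al ≤ θ := by
    have := mul_le_mul_of_nonneg_left hinv hS0
    calc S / al = S * (1 / al) := by ring
      _ ≤ θ := this
  refine ⟨a, ha1, ?_⟩
  -- the pointwise bound
  set Sl : Set (Fin n → ℝ) := {x | ‖x‖ ≤ t ∧ |∑ i, a i * x i| ≤ θ} with hSl
  have hSlm : MeasurableSet Sl := by
    have h1 : IsClosed Sl := by
      have c1 : Continuous fun x : Fin n → ℝ => |∑ i, a i * x i| := by fun_prop
      exact IsClosed.inter (isClosed_le continuous_norm continuous_const)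
        (isClosed_le c1 continuous_const)
    exact h1.measurableSet
  have key : ∀ x ∈ closedBall (0 : Fin n → ℝ) t,
      |ψ x - (if 0 < ∑ i, a i * x i then (1:ℝ) else 0)| ≤ β + bd ψ v β x + Sl.indicator 1 x := by
    intro x hx
    have hx' : ‖x‖ ≤ t := by simpa [mem_closedBall, dist_eq_norm] using hx
    have u0 := D.ψ0 x
    have u1 := D.ψ1 x
    have nb := D.bd_nonneg x
    have ni : (0:ℝ) ≤ Sl.indicator 1 x := indicator_nonneg (fun _ _ => zero_le_one) _
    have hle1 : |ψ x - (if 0 < ∑ i, a i * x i then (1:ℝ) else 0)| ≤ 1 := by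
      split_ifs
      · rw [abs_le]; constructor <;> linarith
      · rw [sub_zero, abs_le]; constructor <;> linarith
    by_cases g : Gd ψ v β x
    · have hT := abs_le.mp (taylorV hψ D.ψ0 D.ψ1 hK0 hK p x (hx'.trans ht1))
      have hx2 : 4 ^ n * K * ‖x‖ ^ 2 ≤ 4 ^ n * K * t ^ 2 := by
        apply mul_le_mul_of_nonneg_left _ (by positivity)
        exact pow_le_pow_left₀ (norm_nonneg _) hx' 2
      rcases g.1 with h | h
      · have h1 := D.V_N (hx'.trans ht1) hp g h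
        have h2 : A x ≤ S := by simp only [hS]; linarith [hT.1, hT.2]
        have h3 : ∑ i, a i * x i ≤ θ := by
          rw [hax]
          exact (div_le_div_of_nonneg_right h2 hal0.le).trans hSθ
        by_cases h4 : 0 < ∑ i, a i * x i
        · have : x ∈ Sl := ⟨hx', by rw [abs_of_pos h4]; exact h3⟩
          rw [indicator_of_mem this]
          simp only [Pi.one_apply]
          linarith
        · rw [if_neg h4, sub_zero, abs_of_nonneg u0]; linarith
      · have h1 := D.V_P (hx'.trans ht1) hp g h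
        have h2 : -S ≤ A x := by simp only [hS]; linarith [hT.1, hT.2]
        have h3 : -θ ≤ ∑ i, a i * x i := by
          rw [hax]
          have := div_le_div_of_nonneg_right h2 hal0.le
          rw [neg_div] at this
          linarith
        by_cases h4 : 0 < ∑ i, a i * x i
        · rw [if_pos h4, abs_le]; constructor <;> linarith
        · have : x ∈ Sl := ⟨hx', by rw [abs_of_nonpos (not_lt.mp h4)]; linarith⟩
          rw [indicator_of_mem this]
          simp only [Pi.one_apply]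
          linarith
    · have := D.one_le_bd g
      linarith
  have kt := isCompact_closedBall (0 : Fin n → ℝ) t
  have k4 := isCompact_closedBall (0 : Fin n → ℝ) 4
  have I1 : IntegrableOn (bd ψ v β) (closedBall (0 : Fin n → ℝ) t) :=
    cb.continuousOn.integrableOn_compact kt
  have I4 : IntegrableOn (bd ψ v β) (closedBall (0 : Fin n → ℝ) 4) :=
    cb.continuousOn.integrableOn_compact k4
  have J3 : IntegrableOn (fun _ : Fin n → ℝ => β) (closedBall (0 : Fin n → ℝ) t) :=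
    integrableOn_const (vol_ne _ _)
  have J4 : IntegrableOn (Sl.indicator (1 : (Fin n → ℝ) → ℝ)) (closedBall (0 : Fin n → ℝ) t) := by
    apply IntegrableOn.indicator _ hSlm
    exact integrableOn_const (vol_ne _ _)
  have J5 : IntegrableOn (fun x => β + bd ψ v β x) (closedBall (0 : Fin n → ℝ) t) := J3.add I1
  calc ∫ x in closedBall (0 : Fin n → ℝ) t, |ψ x - (if 0 < ∑ i, a i * x i then 1 else 0)|
      ≤ ∫ x in closedBall (0 : Fin n → ℝ) t, (β + bd ψ v β x + Sl.indicator 1 x) := by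
        refine integral_mono_of_nonneg (Eventually.of_forall fun x => abs_nonneg _)
          (J5.add J4) ?_
        exact (ae_restrict_iff' measurableSet_closedBall).mpr (Eventually.of_forall key)
    _ = β * (2 * t) ^ n + (∫ x in closedBall (0 : Fin n → ℝ) t, bd ψ v β x) +
          ∫ x in closedBall (0 : Fin n → ℝ) t, Sl.indicator (1 : (Fin n → ℝ) → ℝ) x := by
        rw [integral_add J5 J4, integral_add J3 I1, setIntegral_const, measureReal_def,
          volc t ht.le, smul_eq_mul, mul_comm β]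
    _ ≤ _ := by
        have h5 : ∫ q in closedBall (0 : Fin n → ℝ) t, bd ψ v β q ≤ 3 * δ / β :=
          (setIntegral_mono_set I4 (Eventually.of_forall fun x => D.bd_nonneg x)
            (closedBall_subset_closedBall (by linarith)).eventuallyLE).trans D.bd_int
        have h6 : ∫ x in closedBall (0 : Fin n → ℝ) t, Sl.indicator (1 : (Fin n → ℝ) → ℝ) x ≤
            n * θ * (2 * t) ^ n / t := by
          have e : ∫ x in closedBall (0 : Fin n → ℝ) t, Sl.indicator (1 : (Fin n → ℝ) → ℝ) x =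
              volume.real Sl := by
            rw [setIntegral_indicator hSlm]
            have : closedBall (0 : Fin n → ℝ) t ∩ Sl = Sl := by
              apply inter_eq_right.mpr
              rintro x ⟨h1, _⟩
              simpa [mem_closedBall, dist_eq_norm] using h1
            rw [this]
            simp
          rw [e]
          exact slab_vol a ha1 ht hθ0
        linarith

end

/-- Euclidean ball. -/
def Bq (n : ℕ) (r : ℝ) : Set (Fin n → ℝ) := {x | ∑ i, x i ^ 2 ≤ r ^ 2}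

lemma Bq_closed (r : ℝ) : IsClosed (Bq n r) :=
  isClosed_le (by fun_prop) continuous_const

lemma Bq_sub {r : ℝ} (hr : 0 ≤ r) : Bq n r ⊆ closedBall 0 r := by
  intro x hx
  rw [mem_closedBall, dist_eq_norm, sub_zero, pi_norm_le_iff_of_nonneg hr]
  intro i
  have h1 : x i ^ 2 ≤ r ^ 2 :=
    (Finset.single_le_sum (f := fun i => x i ^ 2) (fun i _ => sq_nonneg _)
      (Finset.mem_univ i)).trans hx
  rw [Real.norm_eq_abs]
  exact abs_le_of_sq_le_sq' h1 hr |> fun h => abs_le.mpr h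

lemma Bq_compact {r : ℝ} (hr : 0 ≤ r) : IsCompact (Bq n r) :=
  (isCompact_closedBall 0 r).of_isClosed_subset (Bq_closed r) (Bq_sub hr)

lemma Bq_vol {r : ℝ} (hr : 0 ≤ r) : volume.real (Bq n r) ≤ (2 * r) ^ n := by
  rw [← volc r hr 0, measureReal_def]
  exact ENNReal.toReal_mono (vol_ne r 0) (measure_mono (Bq_sub hr))

lemma sc_sub {r : ℝ} (hr : 0 ≤ r) {x : Fin n → ℝ} (hx : ‖x‖ ≤ r) :
    ((1 / ((n:ℝ) + 1)) • x) ∈ Bq n r := by
  have hn : (0:ℝ) < n + 1 := by positivity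
  have h1 : ∀ i, ((1 / ((n:ℝ) + 1)) • x) i ^ 2 ≤ (1 / ((n:ℝ) + 1)) ^ 2 * r ^ 2 := by
    intro i
    rw [Pi.smul_apply, smul_eq_mul, mul_pow]
    apply mul_le_mul_of_nonneg_left _ (by positivity)
    have := (norm_le_pi_norm x i).trans hx
    rw [Real.norm_eq_abs] at this
    rw [← sq_abs]
    exact pow_le_pow_left₀ (abs_nonneg _) this 2
  calc ∑ i, ((1 / ((n:ℝ) + 1)) • x) i ^ 2 ≤ ∑ i : Fin n, (1 / ((n:ℝ) + 1)) ^ 2 * r ^ 2 :=
        Finset.sum_le_sum fun i _ => h1 i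
    _ = n * (1 / ((n:ℝ) + 1)) ^ 2 * r ^ 2 := by simp; ring
    _ ≤ 1 * r ^ 2 := by
        apply mul_le_mul_of_nonneg_right _ (by positivity)
        rw [div_pow, one_pow, mul_one_div, div_le_one (by positivity)]
        nlinarith
    _ = r ^ 2 := one_mul _

lemma sc_int {f : (Fin n → ℝ) → ℝ} (hf : Continuous f) (h0 : ∀ x, 0 ≤ f x) {r : ℝ} (hr : 0 ≤ r) :
    ∫ x in closedBall (0 : Fin n → ℝ) r, f ((1 / ((n:ℝ) + 1)) • x) ≤
      ((n:ℝ) + 1) ^ n * ∫ x in Bq n r, f x := by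
  have hρ : (0:ℝ) < 1 / ((n:ℝ) + 1) := by positivity
  rw [Measure.setIntegral_comp_smul_of_pos volume f _ hρ]
  simp only [Module.finrank_fintype_fun_eq_card, Fintype.card_fin, smul_eq_mul]
  have e : ((1 / ((n:ℝ) + 1)) ^ n)⁻¹ = ((n:ℝ) + 1) ^ n := by
    rw [one_div, inv_pow, inv_inv]
  rw [e]
  apply mul_le_mul_of_nonneg_left _ (by positivity)
  refine setIntegral_mono_set (hf.continuousOn.integrableOn_compact (Bq_compact hr))
    (Eventually.of_forall h0) (LE.le.eventuallyLE ?_)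
  rintro y ⟨x, hx, rfl⟩
  refine sc_sub hr ?_
  simpa [mem_closedBall, dist_eq_norm] using hx

lemma good_of {ψ v : (Fin n → ℝ) → ℝ} {β : ℝ} {x : Fin n → ℝ} (h0 : 0 ≤ ψ x) (h1 : ψ x ≤ 1)
    (hb : 0 < β) (hb2 : β ≤ 1 / 2) (h : bd ψ v β x < 1) : Gd ψ v β x := by
  by_contra h'
  have : 1 ≤ bd ψ v β x := by
    unfold bd
    rw [le_div_iff₀ hb, one_mul]
    have a0 : 0 ≤ ψ x * (1 - ψ x) := mul_nonneg h0 (by linarith)
    have a1 := abs_nonneg (ψ x - v x)
    unfold Gd at h'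
    rw [not_and_or, not_or] at h'
    rcases h' with ⟨h2, h3⟩ | h2
    · push Not at h2 h3
      nlinarith
    · push Not at h2
      linarith
  linarith

lemma exists_good {ψ v : (Fin n → ℝ) → ℝ} (hψ : Continuous ψ) (hv : Continuous v)
    (h0 : ∀ x, 0 ≤ ψ x) (h1 : ∀ x, ψ x ≤ 1) {β δ : ℝ} (hb : 0 < β) (hb2 : β ≤ 1 / 2)
    (i1 : ∫ x in closedBall (0 : Fin n → ℝ) 4, ψ x * (1 - ψ x) ≤ δ)
    (i2 : ∫ x in closedBall (0 : Fin n → ℝ) 4, |ψ x - v x| ≤ δ) (hδ : 6 * δ / β < 1) :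
    ∃ p : Fin n → ℝ, ‖p‖ ≤ 1 ∧ Gd ψ v β p ∧ Gd ψ v β (-p) := by
  have k1 := isCompact_closedBall (0 : Fin n → ℝ) 1
  have k4 := isCompact_closedBall (0 : Fin n → ℝ) 4
  have cb : Continuous (bd ψ v β) := by unfold bd; fun_prop
  have nb : ∀ x, 0 ≤ bd ψ v β x := by
    intro x
    have : 0 ≤ ψ x * (1 - ψ x) := mul_nonneg (h0 x) (by linarith [h1 x])
    unfold bd; positivity
  have j1 : IntegrableOn (fun x => ψ x * (1 - ψ x)) (closedBall (0 : Fin n → ℝ) 4) :=
    (by fun_prop : Continuous fun x => ψ x * (1 - ψ x)).continuousOn.integrableOn_compact k4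
  have j2 : IntegrableOn (fun x => |ψ x - v x|) (closedBall (0 : Fin n → ℝ) 4) :=
    (by fun_prop : Continuous fun x => |ψ x - v x|).continuousOn.integrableOn_compact k4
  have hB : ∫ x in closedBall (0 : Fin n → ℝ) 4, bd ψ v β x ≤ 3 * δ / β := by
    unfold bd
    rw [integral_div, integral_add (j1.const_mul 2) j2, integral_const_mul]
    apply div_le_div_of_nonneg_right _ hb.le
    linarith
  have I1 : IntegrableOn (bd ψ v β) (closedBall (0 : Fin n → ℝ) 1) :=
    cb.continuousOn.integrableOn_compact k1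
  have I1n : IntegrableOn (fun x => bd ψ v β (-x)) (closedBall (0 : Fin n → ℝ) 1) :=
    (cb.comp continuous_neg).continuousOn.integrableOn_compact k1
  have I4 : IntegrableOn (bd ψ v β) (closedBall (0 : Fin n → ℝ) 4) :=
    cb.continuousOn.integrableOn_compact k4
  have hB1 : ∫ x in closedBall (0 : Fin n → ℝ) 1, bd ψ v β x ≤ 3 * δ / β :=
    (setIntegral_mono_set I4 (Eventually.of_forall nb)
      (closedBall_subset_closedBall (by norm_num)).eventuallyLE).trans hB
  have hneg : ∫ x in closedBall (0 : Fin n → ℝ) 1, bd ψ v β (-x) =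
      ∫ x in closedBall (0 : Fin n → ℝ) 1, bd ψ v β x := by
    have hpre : (fun z : Fin n → ℝ => -z) ⁻¹' (closedBall 0 1) =
        closedBall (0 : Fin n → ℝ) 1 := by
      ext z; simp
    have h2 := (Measure.measurePreserving_neg (volume : Measure (Fin n → ℝ))).setIntegral_preimage_emb
      (measurableEmbedding_neg) (bd ψ v β) (closedBall 0 1)
    rw [hpre] at h2
    exact h2
  by_contra hcon
  push Not at hcon
  have hge : ∀ x ∈ closedBall (0 : Fin n → ℝ) 1, (1:ℝ) ≤ bd ψ v β x + bd ψ v β (-x) := by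
    intro x hx
    have hx' : ‖x‖ ≤ 1 := by simpa [mem_closedBall, dist_eq_norm] using hx
    by_contra hlt
    push Not at hlt
    have g1 := good_of (h0 x) (h1 x) hb hb2 (by linarith [nb (-x)] : bd ψ v β x < 1)
    have g2 := good_of (h0 (-x)) (h1 (-x)) hb hb2 (by linarith [nb x] : bd ψ v β (-x) < 1)
    exact hcon x hx' g1 g2
  have h3 : ∫ x in closedBall (0 : Fin n → ℝ) 1, (1:ℝ) ≤
      ∫ x in closedBall (0 : Fin n → ℝ) 1, (bd ψ v β x + bd ψ v β (-x)) :=
    setIntegral_mono_on (integrableOn_const (vol_ne _ _)) (I1.add I1n) measurableSet_closedBall hge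
  rw [integral_add I1 I1n, hneg, setIntegral_const, measureReal_def, volc 1 (by norm_num)] at h3
  have h4 : (1:ℝ) ≤ (2 * 1) ^ n := one_le_pow₀ (by norm_num)
  simp only [smul_eq_mul, mul_one] at h3 h4
  have : 3 * δ / β + 3 * δ / β = 6 * δ / β := by ring
  linarith

lemma tri {ψ v H : (Fin n → ℝ) → ℝ} {c β δ η : ℝ} (hψ : Continuous ψ) (hv : Continuous v)
    (h0 : ∀ x, 0 ≤ ψ x) (h1 : ∀ x, ψ x ≤ 1) (v0 : ∀ x, 0 ≤ v x) (v1 : ∀ x, v x ≤ 1)
    (odd : ∀ x, H (-x) = - H x)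
    (vH : ∀ p : Fin n → ℝ, ∑ i, p i ^ 2 ≤ 16 → |v p - c - H p| ≤ δ)
    (i2 : ∫ x in Bq n 4, |ψ x - v x| ≤ δ)
    {p : Fin n → ℝ} (hp : ∑ i, p i ^ 2 ≤ 16) (g1 : Gd ψ v β p) (g2 : Gd ψ v β (-p))
    (hb : 0 < β) (hd0 : 0 ≤ δ) (hd : δ ≤ β) (hη : 9 * 2 ^ n * β < η)
    (e1 : η ≤ ∫ x in Bq n 1, ψ x) (e2 : η ≤ ∫ x in Bq n 1, (1 - ψ x)) :
    |c - 1 / 2| ≤ β + δ := by
  have key : ∀ x : Fin n → ℝ, ∑ i, x i ^ 2 ≤ 16 → |v x + v (-x) - 2 * c| ≤ 2 * δ := by
    intro x hx
    have c1 := abs_le.mp (vH x hx)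
    have c2 := abs_le.mp (vH (-x) (by simpa using hx))
    rw [odd x] at c2
    rw [abs_le]
    constructor <;> linarith [c1.1, c1.2, c2.1, c2.2]
  have kp := abs_le.mp (key p hp)
  have b1 := abs_le.mp g1.2
  have b2 := abs_le.mp g2.2
  have hP : (1:ℝ) ≤ 2 ^ n := one_le_pow₀ (by norm_num)
  have hsub : Bq n 1 ⊆ Bq n 4 := fun x hx => by
    have : ∑ i, x i ^ 2 ≤ 1 ^ 2 := hx
    show ∑ i, x i ^ 2 ≤ 4 ^ 2
    linarith
  have k1 := Bq_compact (n := n) (r := 1) (by norm_num)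
  have k4 := Bq_compact (n := n) (r := 4) (by norm_num)
  have J1 : IntegrableOn ψ (Bq n 1) := hψ.continuousOn.integrableOn_compact k1
  have J2 : IntegrableOn v (Bq n 1) := hv.continuousOn.integrableOn_compact k1
  have J3 : IntegrableOn (fun x => |ψ x - v x|) (Bq n 4) :=
    (by fun_prop : Continuous fun x => |ψ x - v x|).continuousOn.integrableOn_compact k4
  have J4 : ∀ c : ℝ, IntegrableOn (fun _ : Fin n → ℝ => c) (Bq n 1) :=
    fun c => integrableOn_const k1.measure_lt_top.ne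
  have i3 : ∫ x in Bq n 1, |ψ x - v x| ≤ δ :=
    (setIntegral_mono_set J3 (Eventually.of_forall fun x => abs_nonneg _)
      hsub.eventuallyLE).trans i2
  have hvol := Bq_vol (n := n) (r := 1) (by norm_num)
  rw [mul_one] at hvol
  have hvol0 : 0 ≤ volume.real (Bq n 1) := measureReal_nonneg
  have hlow : 2 * c + 2 * δ ≤ 4 * β + 4 * δ → False := by
    intro hc
    have h3 : ∫ x in Bq n 1, ψ x ≤ ∫ x in Bq n 1, (|ψ x - v x| + (4 * β + 4 * δ)) := by
      refine setIntegral_mono_on J1 ((J3.mono_set hsub).add (J4 _)) (Bq_closed 1).measurableSet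
        fun x hx => ?_
      have hx16 : ∑ i, x i ^ 2 ≤ 16 := by
        have : ∑ i, x i ^ 2 ≤ 1 ^ 2 := hx
        linarith
      have := abs_le.mp (key x hx16)
      have := v0 (-x)
      have := le_abs_self (ψ x - v x)
      linarith [this]
    rw [integral_add (J3.mono_set hsub) (J4 _), setIntegral_const, smul_eq_mul] at h3
    have h4 : volume.real (Bq n 1) * (4 * β + 4 * δ) ≤ 2 ^ n * (4 * β + 4 * δ) :=
      mul_le_mul_of_nonneg_right hvol (by linarith)
    nlinarith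
  have hhigh : 2 - (4 * β + 4 * δ) ≤ 2 * c - 2 * δ → False := by
    intro hc
    have h3 : ∫ x in Bq n 1, (1 - ψ x) ≤ ∫ x in Bq n 1, (|ψ x - v x| + (4 * β + 4 * δ)) := by
      refine setIntegral_mono_on ((J4 1).sub J1) ((J3.mono_set hsub).add (J4 _))
        (Bq_closed 1).measurableSet fun x hx => ?_
      have hx16 : ∑ i, x i ^ 2 ≤ 16 := by
        have : ∑ i, x i ^ 2 ≤ 1 ^ 2 := hx
        linarith
      have := abs_le.mp (key x hx16)
      have := v1 (-x)
      have := neg_abs_le (ψ x - v x)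
      linarith [this]
    rw [integral_add (J3.mono_set hsub) (J4 _), setIntegral_const, smul_eq_mul] at h3
    have h4 : volume.real (Bq n 1) * (4 * β + 4 * δ) ≤ 2 ^ n * (4 * β + 4 * δ) :=
      mul_le_mul_of_nonneg_right hvol (by linarith)
    nlinarith
  have w1 := v0 p
  have w2 := v0 (-p)
  have w3 := v1 p
  have w4 := v1 (-p)
  rcases g1.1 with h | h <;> rcases g2.1 with h' | h'
  · exact (hlow (by linarith [kp.1, kp.2, b1.1, b1.2, b2.1, b2.2])).elim
  · rw [abs_le]; constructor <;> linarith [kp.1, kp.2, b1.1, b1.2, b2.1, b2.2]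
  · rw [abs_le]; constructor <;> linarith [kp.1, kp.2, b1.1, b1.2, b2.1, b2.2]
  · exact (hhigh (by linarith [kp.1, kp.2, b1.1, b1.2, b2.1, b2.2])).elim

lemma params1 (n : ℕ) {σ η ε K : ℝ} (hσ : 0 < σ) (hη : 0 < η) (hε : 0 < ε) (hK0 : 0 ≤ K)
    {P Cn Q : ℝ} (hP1 : 1 ≤ P) (hCn0 : 0 ≤ Cn) (hQ0 : 0 ≤ Q) :
    ∃ t m β : ℝ, 0 < t ∧ t ≤ 1 ∧ Q * t ≤ ε / 4 ∧ 0 < m ∧ m ≤ ε ∧ m ≤ σ ∧ m ≤ η ∧ m ≤ 1 ∧ 0 < β ∧
      P ^ 2 * β ≤ m / 64 ∧ P * β ≤ m / 64 ∧ β ≤ m / 64 ∧ Cn * P / t * β ≤ m / 64 := by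
  have hP0 : 0 < P := by linarith
  -- t'
  obtain ⟨t, ht⟩ : ∃ z : ℝ, z = min 1 (ε / (4 * (Q + 1))) := ⟨_, rfl⟩
  have ht0 : 0 < t := by rw [ht]; exact lt_min one_pos (by positivity)
  have ht1 : t ≤ 1 := by rw [ht]; exact min_le_left _ _
  have hQt : Q * t ≤ ε / 4 := by
    have h1 : t ≤ ε / (4 * (Q + 1)) := by rw [ht]; exact min_le_right _ _
    have h2 : (Q + 1) * t ≤ ε / 4 := by
      calc (Q + 1) * t ≤ (Q + 1) * (ε / (4 * (Q + 1))) := mul_le_mul_of_nonneg_left h1 (by positivity)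
        _ = ε / 4 := by field_simp
    nlinarith
  obtain ⟨m, hm⟩ : ∃ z : ℝ, z = min (min ε σ) (min η 1) := ⟨_, rfl⟩
  have hm0 : 0 < m := by rw [hm]; exact lt_min (lt_min hε hσ) (lt_min hη one_pos)
  have hmε : m ≤ ε := by rw [hm]; exact (min_le_left _ _).trans (min_le_left _ _)
  have hmσ : m ≤ σ := by rw [hm]; exact (min_le_left _ _).trans (min_le_right _ _)
  have hmη : m ≤ η := by rw [hm]; exact (min_le_right _ _).trans (min_le_left _ _)
  have hm1 : m ≤ 1 := by rw [hm]; exact (min_le_right _ _).trans (min_le_right _ _)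
  obtain ⟨W, hW⟩ : ∃ z : ℝ, z = P ^ 2 + Cn * P / t := ⟨_, rfl⟩
  have hW0 : 0 < W := by rw [hW]; positivity
  obtain ⟨β, hβ⟩ : ∃ z : ℝ, z = m / (64 * W) := ⟨_, rfl⟩
  have hβ0 : 0 < β := by rw [hβ]; positivity
  have hβW : β * W = m / 64 := by rw [hβ]; field_simp
  have hP2 : P ≤ P ^ 2 := by nlinarith
  have hCt : 0 ≤ Cn * P / t := by positivity
  have hβP2 : P ^ 2 * β ≤ m / 64 := by
    have : P ^ 2 * β ≤ W * β := mul_le_mul_of_nonneg_right (by rw [hW]; linarith) hβ0.le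
    linarith
  have hβP : P * β ≤ m / 64 := (mul_le_mul_of_nonneg_right hP2 hβ0.le).trans hβP2
  have hβ1 : β ≤ m / 64 := by nlinarith
  have hβC : Cn * P / t * β ≤ m / 64 := by
    have : Cn * P / t * β ≤ W * β := mul_le_mul_of_nonneg_right (by rw [hW]; nlinarith) hβ0.le
    linarith
  exact ⟨t, m, β, ht0, ht1, hQt, hm0, hmε, hmσ, hmη, hm1, hβ0, hβP2, hβP, hβ1, hβC⟩

lemma params (n : ℕ) {σ η ε K : ℝ} (hσ : 0 < σ) (hη : 0 < η) (hε : 0 < ε) (hK0 : 0 ≤ K) :
    ∃ t β δ : ℝ, 0 < t ∧ t ≤ 1 ∧ 0 < β ∧ β ≤ 1 / 2 ∧ 0 < δ ∧ δ ≤ β ∧ 6 * δ / β < 1 ∧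
      9 * 2 ^ n * β < η ∧ 6 * β + (β + δ) + 3 * δ < σ ∧
      2 ^ n * (2 * (2 ^ n * β + 6 * δ / β)) + 2 ^ n * (3 * δ / β) +
        2 * (2 * δ + (β + δ)) ^ 2 + 2 * δ < 3 / 8 ∧
      β * (2 * t) ^ n + 3 * δ / β +
      n * ((2 ^ n * β + 6 * δ / β + 4 ^ n * K * t ^ 2) * (n * (8 * 2 ^ n))) * (2 * t) ^ n / t ≤
      ε * t ^ n := by
  obtain ⟨P, hP⟩ : ∃ z : ℝ, z = 2 ^ n := ⟨_, rfl⟩
  have hP1 : 1 ≤ P := by rw [hP]; exact one_le_pow₀ (by norm_num)
  have hP0 : 0 < P := by linarith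
  obtain ⟨Cn, hCn⟩ : ∃ z : ℝ, z = n * (n * (8 * P)) * P := ⟨_, rfl⟩
  have hCn0 : 0 ≤ Cn := by rw [hCn]; positivity
  obtain ⟨Q, hQ⟩ : ∃ z : ℝ, z = Cn * (4 ^ n * K) := ⟨_, rfl⟩
  have hQ0 : 0 ≤ Q := by rw [hQ]; positivity
  obtain ⟨t, m, β, ht0, ht1, hQt, hm0, hmε, hmσ, hmη, hm1, hβ0, hβP2, hβP, hβ1, hβC⟩ :=
    params1 n hσ hη hε hK0 hP1 hCn0 hQ0
  -- δ'
  obtain ⟨δ, hδ⟩ : ∃ z : ℝ, z = β * m * t ^ n * t / (512 * P * (Cn + 1)) := ⟨_, rfl⟩
  have hδ0 : 0 < δ := by rw [hδ]; positivity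
  have htn : t ^ n ≤ 1 := pow_le_one₀ ht0.le ht1
  have htn0 : 0 < t ^ n := by positivity
  have hδβ : δ / β = m * t ^ n * t / (512 * P * (Cn + 1)) := by
    rw [hδ]; field_simp
  have hr1 : δ / β ≤ m * t ^ n / 512 := by
    rw [hδβ]
    calc m * t ^ n * t / (512 * P * (Cn + 1)) ≤ m * t ^ n * t / (512 * 1 * (0 + 1)) := by
          apply div_le_div_of_nonneg_left (by positivity) (by norm_num)
          apply mul_le_mul _ (by linarith) (by norm_num) (by positivity)
          linarith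
      _ = m * t ^ n / 512 * t := by ring
      _ ≤ m * t ^ n / 512 * 1 := mul_le_mul_of_nonneg_left ht1 (by positivity)
      _ = _ := mul_one _
  have hr2 : P * (δ / β) ≤ 1 / 512 := by
    rw [hδβ]
    calc P * (m * t ^ n * t / (512 * P * (Cn + 1))) = m * t ^ n * t / (512 * (Cn + 1)) := by
          field_simp
      _ ≤ 1 * 1 * 1 / (512 * (0 + 1)) := by
          apply div_le_div₀ (by norm_num) _ (by norm_num) (by linarith)
          exact mul_le_mul (mul_le_mul hm1 htn htn0.le (by norm_num)) ht1 ht0.le (by norm_num)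
      _ = 1 / 512 := by norm_num
  have hr3 : Cn * (δ / β) / t ≤ m * t ^ n / 512 := by
    rw [hδβ]
    calc Cn * (m * t ^ n * t / (512 * P * (Cn + 1))) / t =
          (m * t ^ n / 512) * ((Cn / (Cn + 1)) * (1 / P)) := by field_simp
      _ ≤ (m * t ^ n / 512) * (1 * 1) := by
          apply mul_le_mul_of_nonneg_left _ (by positivity)
          apply mul_le_mul _ _ (by positivity) (by norm_num)
          · rw [div_le_one (by positivity)]; linarith
          · rw [div_le_one (by positivity)]; exact hP1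
      _ = _ := by ring
  have hr4 : δ ≤ β := by
    have h1 : δ / β ≤ 1 := by
      refine hr1.trans ?_
      have : m * t ^ n ≤ 1 * 1 := mul_le_mul hm1 htn htn0.le (by norm_num)
      linarith
    rwa [div_le_one hβ0] at h1
  have hmt : m * t ^ n ≤ 1 := by
    have : m * t ^ n ≤ 1 * 1 := mul_le_mul hm1 htn htn0.le (by norm_num)
    linarith
  have hs : 2 ^ n * (2 * (2 ^ n * β + 6 * δ / β)) + 2 ^ n * (3 * δ / β) +
      2 * (2 * δ + (β + δ)) ^ 2 + 2 * δ < 3 / 8 := by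
    rw [← hP]
    have q1 : P * (2 * (P * β + 6 * δ / β)) + P * (3 * δ / β) =
        2 * (P ^ 2 * β) + 15 * (P * (δ / β)) := by ring
    rw [q1]
    have q2 : 2 * δ + (β + δ) ≤ 1 / 16 := by linarith
    have q3 : (2 * δ + (β + δ)) ^ 2 ≤ (1 / 16) ^ 2 := pow_le_pow_left₀ (by positivity) q2 2
    linarith
  -- bound of the right-hand side
  have hR : β * (2 * t) ^ n + 3 * δ / β +
      n * ((2 ^ n * β + 6 * δ / β + 4 ^ n * K * t ^ 2) * (n * (8 * 2 ^ n))) * (2 * t) ^ n / t ≤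
      ε * t ^ n := by
    have r1 : β * (2 * t) ^ n + 3 * δ / β +
      n * ((2 ^ n * β + 6 * δ / β + 4 ^ n * K * t ^ 2) * (n * (8 * 2 ^ n))) * (2 * t) ^ n / t =
      P * β * t ^ n + 3 * (δ / β) + Cn * P / t * β * t ^ n + 6 * (Cn * (δ / β) / t) * t ^ n +
        Q * t * t ^ n := by
      rw [mul_pow, ← hP, hQ, hCn]
      field_simp
      ring
    rw [r1]
    have s1 : P * β * t ^ n ≤ m / 64 * t ^ n := mul_le_mul_of_nonneg_right hβP htn0.le
    have s2 : Cn * P / t * β * t ^ n ≤ m / 64 * t ^ n := mul_le_mul_of_nonneg_right hβC htn0.le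
    have s3 : Q * t * t ^ n ≤ ε / 4 * t ^ n := mul_le_mul_of_nonneg_right hQt htn0.le
    have s4 : 6 * (Cn * (δ / β) / t) * t ^ n ≤ 6 * (m * t ^ n / 512) * 1 := by
      apply mul_le_mul (by linarith) htn htn0.le (by positivity)
    have s5 : m * t ^ n ≤ ε * t ^ n := mul_le_mul_of_nonneg_right hmε htn0.le
    have s6 : 0 < ε * t ^ n := mul_pos hε htn0
    linarith
  refine ⟨t, β, δ, ht0, ht1, hβ0, by linarith, hδ0, hr4, ?_, ?_, by linarith, hs, hR⟩
  · rw [mul_div_assoc]; linarith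
  · rw [← hP]; nlinarith

/-- **End of the package PLN.** -/
theorem pln_end (n : ℕ) {σ η ε : ℝ} (hσ : 0 < σ) (hη : 0 < η) (hε : 0 < ε) :
    ∃ t δ : ℝ, 0 < t ∧ t ≤ 1 ∧ 0 < δ ∧ ∀ (ψ v H : (Fin n → ℝ) → ℝ) (c : ℝ),
      Continuous ψ → (∀ x, 0 ≤ ψ x) → (∀ x, ψ x ≤ 1) →
      Continuous v → (∀ x, 0 ≤ v x) → (∀ x, v x ≤ 1) →
      (∀ x, H (-x) = - H x) → (∀ x q, |H x + H q - H (x + q)| ≤ 3 / 2 - σ) →
      (∀ p : Fin n → ℝ, ∑ i, p i ^ 2 ≤ 16 → |v p - c - H p| ≤ δ) →
      (∫ x in Bq n 4, ψ x * (1 - ψ x)) ≤ δ → (∫ x in Bq n 4, |ψ x - v x|) ≤ δ →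
      η ≤ (∫ x in Bq n 1, ψ x) → η ≤ (∫ x in Bq n 1, (1 - ψ x)) →
      ∃ a : Fin n → ℝ, ∑ i, a i ^ 2 = 1 ∧
        (∫ x in Bq n t, |ψ x - (if 0 < ∑ i, a i * x i then 1 else 0)|) ≤ ε * t ^ n := by
  classical
  obtain ⟨K, hK0, hK⟩ := exists_taylor n
  obtain ⟨t, β, δ, ht0, ht1, hβ0, hβ2, hδ0, hr4, h6, h9, hsm, hs, hR⟩ :=
    params n hσ hη hε hK0
  have hn0 : (0:ℝ) < (n:ℝ) + 1 := by positivity
  have hρ1 : 1 / ((n:ℝ) + 1) ≤ 1 := by
    rw [div_le_one hn0]
    have : (0:ℝ) ≤ n := Nat.cast_nonneg n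
    linarith
  have hN1 : (1:ℝ) ≤ ((n:ℝ) + 1) ^ n := one_le_pow₀ (by
    have : (0:ℝ) ≤ n := Nat.cast_nonneg n
    linarith)
  refine ⟨t / (n + 1), δ / ((n:ℝ) + 1) ^ n, by positivity, ?_, by positivity, ?_⟩
  · rw [div_le_one hn0]
    have : (0:ℝ) ≤ n := Nat.cast_nonneg n
    linarith
  intro ψ v H c hψ h0 h1 hv v0 v1 odd H3 vH i1 i2 e1 e2
  have hδd : δ / ((n:ℝ) + 1) ^ n ≤ δ := div_le_self hδ0.le hN1
  have cs : Continuous fun x : Fin n → ℝ => (1 / ((n:ℝ) + 1)) • x := by fun_prop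
  -- scaled functions
  have i1' : ∫ x in closedBall (0 : Fin n → ℝ) 4, ψ ((1 / ((n:ℝ) + 1)) • x) *
      (1 - ψ ((1 / ((n:ℝ) + 1)) • x)) ≤ δ := by
    refine (sc_int (f := fun x => ψ x * (1 - ψ x)) (by fun_prop)
      (fun x => mul_nonneg (h0 x) (by linarith [h1 x])) (by norm_num)).trans ?_
    calc ((n:ℝ) + 1) ^ n * ∫ x in Bq n 4, ψ x * (1 - ψ x) ≤
          ((n:ℝ) + 1) ^ n * (δ / ((n:ℝ) + 1) ^ n) := mul_le_mul_of_nonneg_left i1 (by positivity)
      _ = δ := by field_simp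
  have i2' : ∫ x in closedBall (0 : Fin n → ℝ) 4, |ψ ((1 / ((n:ℝ) + 1)) • x) -
      v ((1 / ((n:ℝ) + 1)) • x)| ≤ δ := by
    refine (sc_int (f := fun x => |ψ x - v x|) (by fun_prop)
      (fun x => abs_nonneg _) (by norm_num)).trans ?_
    calc ((n:ℝ) + 1) ^ n * ∫ x in Bq n 4, |ψ x - v x| ≤
          ((n:ℝ) + 1) ^ n * (δ / ((n:ℝ) + 1) ^ n) := mul_le_mul_of_nonneg_left i2 (by positivity)
      _ = δ := by field_simp
  obtain ⟨p, hp, g1, g2⟩ := exists_good (ψ := fun x => ψ ((1 / ((n:ℝ) + 1)) • x))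
    (v := fun x => v ((1 / ((n:ℝ) + 1)) • x)) (hψ.comp cs) (hv.comp cs) (fun x => h0 _)
    (fun x => h1 _) hβ0 hβ2 i1' i2' h6
  have hp16 : ∑ i, ((1 / ((n:ℝ) + 1)) • p) i ^ 2 ≤ 16 := by
    have := sc_sub (r := 1) (by norm_num) hp
    have h2 : ∑ i, ((1 / ((n:ℝ) + 1)) • p) i ^ 2 ≤ 1 ^ 2 := this
    linarith
  have g1' : Gd ψ v β ((1 / ((n:ℝ) + 1)) • p) := g1
  have g2' : Gd ψ v β (-((1 / ((n:ℝ) + 1)) • p)) := by
    rw [← smul_neg]; exact g2
  have hcc := tri hψ hv h0 h1 v0 v1 odd vH i2 hp16 g1' g2' hβ0 (by positivity)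
    (hδd.trans hr4) h9 e1 e2
  have D : Dat (fun x => ψ ((1 / ((n:ℝ) + 1)) • x)) (fun x => v ((1 / ((n:ℝ) + 1)) • x))
      (fun x => H ((1 / ((n:ℝ) + 1)) • x)) c (β + δ) σ δ β := by
    refine ⟨hψ.comp cs, hv.comp cs, fun x => h0 _, fun x => h1 _, fun x => v0 _, fun x => v1 _,
      fun x => ?_, fun x q => ?_, fun p hp => ?_, i1', i2', by linarith, hβ0, hβ2, hδ0.le, hsm⟩
    · simp only [smul_neg]; exact odd _
    · simp only [smul_add]; exact H3 _ _
    · refine (vH _ ?_).trans hδd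
      have h2 : ∑ i, ((1 / ((n:ℝ) + 1)) • p) i ^ 2 ≤ 4 ^ 2 := sc_sub (r := 4) (by norm_num) hp
      linarith
  obtain ⟨a, ha, hfin⟩ := D.core hs hK0 hK ht0 ht1
  refine ⟨a, ha, ?_⟩
  have hfin2 := hfin.trans hR
  -- scale back
  have hρ : (0:ℝ) < 1 / ((n:ℝ) + 1) := by positivity
  have hsc := Measure.setIntegral_comp_smul_of_pos (volume : Measure (Fin n → ℝ))
    (fun y => |ψ y - (if 0 < ∑ i, a i * y i then (1:ℝ) else 0)|) (s := closedBall 0 t) hρ
  have hsame : ∀ x : Fin n → ℝ, |ψ ((1 / ((n:ℝ) + 1)) • x) -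
      (if 0 < ∑ i, a i * ((1 / ((n:ℝ) + 1)) • x) i then (1:ℝ) else 0)| =
      |ψ ((1 / ((n:ℝ) + 1)) • x) - (if 0 < ∑ i, a i * x i then (1:ℝ) else 0)| := by
    intro x
    have h2 : ∑ i, a i * ((1 / ((n:ℝ) + 1)) • x) i = (1 / ((n:ℝ) + 1)) * ∑ i, a i * x i := by
      rw [Finset.mul_sum]
      refine Finset.sum_congr rfl fun i _ => ?_
      rw [Pi.smul_apply, smul_eq_mul]; ring
    rw [h2]
    congr 2
    simp only [mul_pos_iff_of_pos_left hρ]
  simp only [hsame] at hsc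
  rw [hsc] at hfin2
  simp only [Module.finrank_fintype_fun_eq_card, Fintype.card_fin, smul_eq_mul] at hfin2
  have e : ((1 / ((n:ℝ) + 1)) ^ n)⁻¹ = ((n:ℝ) + 1) ^ n := by
    rw [one_div, inv_pow, inv_inv]
  rw [e] at hfin2
  have hset : Bq n (t / (n + 1)) ⊆ ((1 / ((n:ℝ) + 1)) • closedBall (0 : Fin n → ℝ) t : Set (Fin n → ℝ)) := by
    intro y hy
    rw [mem_smul_set_iff_inv_smul_mem₀ hρ.ne']
    have h2 := Bq_sub (by positivity) hy
    rw [mem_closedBall, dist_eq_norm, sub_zero] at h2 ⊢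
    rw [norm_smul, norm_inv, Real.norm_of_nonneg hρ.le, one_div, inv_inv]
    calc ((n:ℝ) + 1) * ‖y‖ ≤ ((n:ℝ) + 1) * (t / (n + 1)) := mul_le_mul_of_nonneg_left h2 hn0.le
      _ = t := by field_simp
  have hmeas : Measurable fun y : Fin n → ℝ =>
      |ψ y - (if 0 < ∑ i, a i * y i then (1:ℝ) else 0)| := by
    have c1 : Measurable fun y : Fin n → ℝ => ∑ i, a i * y i :=
      (by fun_prop : Continuous fun y : Fin n → ℝ => ∑ i, a i * y i).measurable
    have : Measurable fun y : Fin n → ℝ => (if 0 < ∑ i, a i * y i then (1:ℝ) else 0) :=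
      Measurable.ite (measurableSet_lt measurable_const c1) measurable_const measurable_const
    exact (hψ.measurable.sub this).abs
  have hbd : ∀ y : Fin n → ℝ, |ψ y - (if 0 < ∑ i, a i * y i then (1:ℝ) else 0)| ≤ 1 := by
    intro y
    have := h0 y
    have := h1 y
    split_ifs
    · rw [abs_le]; constructor <;> linarith
    · rw [sub_zero, abs_le]; constructor <;> linarith
  have hcomp : IsCompact ((1 / ((n:ℝ) + 1)) • closedBall (0 : Fin n → ℝ) t) :=
    (isCompact_closedBall _ _).smul _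
  have hint : IntegrableOn (fun y : Fin n → ℝ =>
      |ψ y - (if 0 < ∑ i, a i * y i then (1:ℝ) else 0)|)
      ((1 / ((n:ℝ) + 1)) • closedBall (0 : Fin n → ℝ) t) := by
    refine Measure.integrableOn_of_bounded (M := 1) hcomp.measure_lt_top.ne
      hmeas.aestronglyMeasurable (Eventually.of_forall fun y => ?_)
    rw [Real.norm_eq_abs, abs_abs]
    exact hbd y
  have hmono := setIntegral_mono_set hint (Eventually.of_forall fun y => abs_nonneg _)
    hset.eventuallyLE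
  have hNpos : (0:ℝ) < ((n:ℝ) + 1) ^ n := by positivity
  calc ∫ x in Bq n (t / (n + 1)), |ψ x - (if 0 < ∑ i, a i * x i then 1 else 0)|
      ≤ ∫ x in ((1 / ((n:ℝ) + 1)) • closedBall (0 : Fin n → ℝ) t),
        |ψ x - (if 0 < ∑ i, a i * x i then 1 else 0)| := hmono
    _ ≤ (ε * t ^ n) / ((n:ℝ) + 1) ^ n := by
        rw [le_div_iff₀ hNpos, mul_comm]; exact hfin2
    _ = ε * (t / (n + 1)) ^ n := by rw [div_pow]; ring

end Vale.Agent.P134.H922
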